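import Vale.Agent.P133.NucDim.Specs
import Vale.Agent.P133.FinDim.Comparison
import Vale.Agent.P101.Seq
import Vale.Agent.P101.Common

/-!
P133, finite nuclear dimension: a central dimension drop turns weak pure infiniteness into strong
pure infiniteness.

Commuting copies of the dimension drop give, in the central sequence algebra, arbitrarily many
elements with orthogonal ranges and a common full source `e`.  Weak pure
infiniteness compares `x * x` with a bounded number of copies of `x e x`; pushing these into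
orthogonal ranges gives the two elements of strong pure infiniteness.
-/

noncomputable section

namespace Vale.Agent.P133.NucDim

open Filter Topology BoundedContinuousFunction Vale.Agent.P101 Vale.Agent.P133.FinDim

universe u

variable {A : Type u} [CStarAlgebra A]

/-- A copy of the dimension drop commuting with the constants and with given sequences. -/
theorem exists_slot (hA : HasCentralDimensionDrop A) (S : Finset (SeqQuot A atTop)) :
    ∃ y v : SeqQuot A atTop,
      y ∈ StarSubalgebra.centralizer ℂ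
          (Set.range (fun a => seqMk A atTop (const ℕ a)) ∪ ↑S) ∧
      v ∈ StarSubalgebra.centralizer ℂ
          (Set.range (fun a => seqMk A atTop (const ℕ a)) ∪ ↑S) ∧
      y * y = 0 ∧ star v * v = 1 - star y * y - y * star y ∧ y * star y * v = v := by
  classical
  obtain ⟨y, v, hy, hv, hyy, hvv, hyv⟩ := hA
  choose R hR using seqMk_surjective (A := A) (F := atTop)
  have hev : ∀ n : ℕ, ∀ᶠ k in atTop, n ≤ k ∧ ∀ g ∈ S,
      ‖R g n * y k - y k * R g n‖ ≤ 1 / (n + 1 : ℝ) ∧
      ‖star (R g n) * y k - y k * star (R g n)‖ ≤ 1 / (n + 1 : ℝ) ∧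
      ‖R g n * v k - v k * R g n‖ ≤ 1 / (n + 1 : ℝ) ∧
      ‖star (R g n) * v k - v k * star (R g n)‖ ≤ 1 / (n + 1 : ℝ) := by
    intro n
    refine (eventually_ge_atTop n).and ((eventually_all_finset S).2 fun g _ => ?_)
    have hpos : (0 : ℝ) < 1 / (n + 1 : ℝ) := by positivity
    exact ((hy.2 _).eventually_le_const hpos).and (((hy.2 _).eventually_le_const hpos).and
      (((hv.2 _).eventually_le_const hpos).and ((hv.2 _).eventually_le_const hpos)))
  choose k hk hcom using fun n => (hev n).exists
  have hk' : Tendsto k atTop atTop := tendsto_atTop_mono hk tendsto_id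
  obtain ⟨⟨Cy, hCy⟩, hyc⟩ := hy
  obtain ⟨⟨Cv, hCv⟩, hvc⟩ := hv
  let Y : ℕ →ᵇ A := .ofNormedAddCommGroup (y ∘ k) continuous_of_discreteTopology Cy fun n => hCy _
  let V : ℕ →ᵇ A := .ofNormedAddCommGroup (v ∘ k) continuous_of_discreteTopology Cv fun n => hCv _
  have hz : ∀ (z : ℕ →ᵇ A) (w : ℕ → A) (_ : ∀ n, z n = w (k n))
      (_ : ∀ a, Tendsto (fun n => ‖a * w n - w n * a‖) atTop (𝓝 0))
      (_ : ∀ n, ∀ g ∈ S, ‖R g n * w (k n) - w (k n) * R g n‖ ≤ 1 / (n + 1 : ℝ) ∧
        ‖star (R g n) * w (k n) - w (k n) * star (R g n)‖ ≤ 1 / (n + 1 : ℝ)),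
      seqMk A atTop z ∈ StarSubalgebra.centralizer ℂ
        (Set.range (fun a => seqMk A atTop (const ℕ a)) ∪ ↑S) := by
    intro z w hzw hwc hwS
    refine (StarSubalgebra.mem_centralizer_iff ℂ).2 ?_
    rintro g (⟨a, rfl⟩ | hg)
    · simp only [← map_star, ← map_mul, seqMk_eq_iff]
      constructor
      · refine ((hwc a).comp hk').congr fun n => ?_
        simp [hzw]
      · refine ((hwc (star a)).comp hk').congr fun n => ?_
        simp [hzw]
    · rw [← hR g]
      simp only [← map_star, ← map_mul, seqMk_eq_iff]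
      constructor
      · refine squeeze_zero (fun n => norm_nonneg _) (fun n => ?_)
          tendsto_one_div_add_atTop_nhds_zero_nat
        simpa [hzw] using (hwS n g hg).1
      · refine squeeze_zero (fun n => norm_nonneg _) (fun n => ?_)
          tendsto_one_div_add_atTop_nhds_zero_nat
        simpa [hzw] using (hwS n g hg).2
  refine ⟨seqMk A atTop Y, seqMk A atTop V,
    hz Y y (fun n => rfl) hyc fun n g hg => ⟨(hcom n g hg).1, (hcom n g hg).2.1⟩,
    hz V v (fun n => rfl) hvc fun n g hg => ⟨(hcom n g hg).2.2.1, (hcom n g hg).2.2.2⟩, ?_, ?_, ?_⟩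
  · rw [← map_mul, seqMk_eq_zero]
    exact (hyy.comp hk').congr fun n => rfl
  · rw [← map_one (seqMk A atTop)]
    simp only [← map_star, ← map_mul, ← map_sub, seqMk_eq_iff]
    exact (hvv.comp hk').congr fun n => rfl
  · simp only [← map_star, ← map_mul, seqMk_eq_iff]
    exact (hyv.comp hk').congr fun n => rfl

/-- One copy: two elements with orthogonal ranges and a common source generating the unit. -/
theorem slot_data {B : Type u} [CStarAlgebra B] (K : StarSubalgebra ℂ B) [IsClosed (K : Set B)]
    {y v : B} (hy : y ∈ K) (hv : v ∈ K) (hyy : y * y = 0)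
    (hvv : star v * v = 1 - star y * y - y * star y) (hyv : y * star y * v = v) :
    ∃ (U : Fin 2 → B) (D C : Fin 3 → B), (∀ c, U c ∈ K) ∧ (∀ i, D i ∈ K) ∧ (∀ i, C i ∈ K) ∧
      (∀ c c', star (U c) * U c' = if c = c' then star y * y else 0) ∧
      ∑ i, star (D i) * (star y * y) * C i = 1 := by
  let _ : PartialOrder B := CStarAlgebra.spectralOrder B
  have _ : StarOrderedRing B := CStarAlgebra.spectralOrderedRing B
  set e := star y * y with he
  set f := y * star y with hf
  have heK : e ∈ K := mul_mem (star_mem hy) hy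
  have hfK : f ∈ K := mul_mem hy (star_mem hy)
  have hes : IsSelfAdjoint e := IsSelfAdjoint.star_mul_self y
  have hfs : IsSelfAdjoint f := IsSelfAdjoint.mul_star_self y
  set s := cfc Real.sqrt e with hs
  have hsK : s ∈ K := cfc_mem (𝕜' := ℂ) Real.sqrt heK
  have hss : star s = s := (cfc_predicate Real.sqrt e : IsSelfAdjoint s).star_eq
  have hs2 : s * s = e := by
    rw [hs, ← cfc_mul Real.sqrt Real.sqrt e (by fun_prop) (by fun_prop)]
    conv_rhs => rw [← cfc_id' ℝ e hes]
    exact cfc_congr fun t ht =>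
      Real.mul_self_sqrt (spectrum_star_mul_self_nonneg (b := y) t ht)
  have hsy : s * y = 0 := by
    rw [← CStarRing.star_mul_self_eq_zero_iff, star_mul, hss,
      show star y * s * (s * y) = star y * (s * s) * y by simp only [mul_assoc], hs2, he,
      show star y * (star y * y) * y = star y * star y * (y * y) by simp only [mul_assoc], hyy,
      mul_zero]
  have hys : star y * s = 0 := by
    simpa [hss] using congrArg star hsy
  have hne : ∀ t : ℝ, 1 - t + t * t ≠ 0 := fun t => by nlinarith [sq_nonneg (2 * t - 1)]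
  set R := cfc (fun t : ℝ => (1 - t + t * t)⁻¹) f with hR
  have hRK : R ∈ K := cfc_mem (𝕜' := ℂ) _ hfK
  have hTR : (1 - f + f * f) * R = 1 := by
    have hT : 1 - f + f * f = cfc (fun t : ℝ => 1 - t + t * t) f := by
      rw [cfc_add f (fun t : ℝ => 1 - t) (fun t : ℝ => t * t) (by fun_prop) (by fun_prop),
        cfc_sub (fun _ : ℝ => 1) (fun t : ℝ => t) f (by fun_prop) (by fun_prop),
        cfc_mul (fun t : ℝ => t) (fun t : ℝ => t) f (by fun_prop) (by fun_prop),
        cfc_const_one ℝ f hfs, cfc_id' ℝ f hfs]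
    rw [hT, hR, ← cfc_mul (fun t : ℝ => 1 - t + t * t) (fun t : ℝ => (1 - t + t * t)⁻¹) f
      (by fun_prop) ((by fun_prop : Continuous fun t : ℝ => 1 - t + t * t).inv₀ hne).continuousOn,
      ← cfc_const_one ℝ f hfs]
    exact cfc_congr fun t _ => mul_inv_cancel₀ (hne t)
  refine ⟨![s, y], ![1, star y, star y * v], ![R, star y * R, star y * v * R], ?_, ?_, ?_, ?_, ?_⟩
  · intro c; fin_cases c <;> simp [hsK, hy]
  · intro i; fin_cases i <;> simp [one_mem, star_mem hy, mul_mem (star_mem hy) hv]
  · intro i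
    fin_cases i <;> simp [hRK, mul_mem (star_mem hy) hRK, mul_mem (mul_mem (star_mem hy) hv) hRK]
  · intro c c'
    fin_cases c <;> fin_cases c' <;> simp [hss, hs2, hsy, hys, ← he]
  · simp only [Fin.sum_univ_three, Matrix.cons_val_zero, Matrix.cons_val_one, Matrix.cons_val]
    have hfv : f * v = v := hyv
    have e1 : star (star y) * e * (star y * R) = f * f * R := by
      rw [star_star, he, hf]; simp only [mul_assoc]
    have e2 : star (star y * v) * e * (star y * v * R) = star v * v * R := by
      calc star (star y * v) * e * (star y * v * R) = star v * (f * (f * v)) * R := by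
            rw [star_mul, star_star, he, hf]; simp only [mul_assoc]
        _ = star v * v * R := by rw [hfv, hfv]
    rw [star_one, one_mul, e1, e2, hvv, ← add_mul, ← add_mul]
    refine Eq.trans ?_ hTR
    congr 1
    abel

/-- Arbitrarily many elements with orthogonal ranges and one source generating the unit. -/
theorem exists_matrix_row (hA : HasCentralDimensionDrop A) : ∀ L : ℕ,
    ∃ (U : Fin (2 ^ L) → SeqQuot A atTop) (e : SeqQuot A atTop) (m : ℕ)
      (D C : Fin m → SeqQuot A atTop),
      ((∀ w, U w ∈ centSub A atTop) ∧ e ∈ centSub A atTop ∧ (∀ i, D i ∈ centSub A atTop) ∧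
        ∀ i, C i ∈ centSub A atTop) ∧
      (∀ w w', star (U w) * U w' = if w = w' then e else 0) ∧
      ∑ i, star (D i) * e * C i = 1 := by
  classical
  intro L
  induction L with
  | zero =>
    refine ⟨fun _ => 1, 1, 1, fun _ => 1, fun _ => 1,
      ⟨fun _ => one_mem _, one_mem _, fun _ => one_mem _, fun _ => one_mem _⟩, fun w w' => ?_, ?_⟩
    · have : Subsingleton (Fin (2 ^ 0)) := by rw [pow_zero]; infer_instance
      simp [Subsingleton.elim w w']
    · simp
  | succ L ih =>
    obtain ⟨U, e, m, D, C, ⟨hU, he, hD, hC⟩, hUU, hDC⟩ := ih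
    set S : Finset (SeqQuot A atTop) :=
      insert e (Finset.univ.image U ∪ Finset.univ.image D ∪ Finset.univ.image C) with hS
    set K := StarSubalgebra.centralizer ℂ
      (Set.range (fun a => seqMk A atTop (const ℕ a)) ∪ ↑S) with hK
    have : IsClosed (K : Set (SeqQuot A atTop)) := Vale.Agent.P101.isClosed_centralizer _
    obtain ⟨y, v, hy, hv, hyy, hvv, hyv⟩ := exists_slot hA S
    obtain ⟨U', D', C', hU', hD', hC', hUU', hDC'⟩ := slot_data K hy hv hyy hvv hyv
    have hKc : ∀ z ∈ K, z ∈ centSub A atTop := fun z hz =>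
      (StarSubalgebra.mem_centralizer_iff ℂ).2 fun g hg =>
        (StarSubalgebra.mem_centralizer_iff ℂ).1 hz g (Or.inl hg)
    have hcom : ∀ z ∈ K, ∀ g ∈ S, StarCommute z g := fun z hz g hg =>
      starCommute_of_mem_centralizer hz (Or.inr (Finset.mem_coe.2 hg))
    have mU : ∀ w, U w ∈ S := fun w => by simp [hS]
    have mD : ∀ i, D i ∈ S := fun i => by simp [hS]
    have mC : ∀ i, C i ∈ S := fun i => by simp [hS]
    have me : e ∈ S := by simp [hS]
    set e' := star y * y with he'
    have he'K : e' ∈ K := mul_mem (star_mem hy) hy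
    let σ : Fin (2 ^ (L + 1)) ≃ Fin (2 ^ L) × Fin 2 :=
      (finCongr (pow_succ 2 L)).trans finProdFinEquiv.symm
    let τ : Fin (m * 3) ≃ Fin m × Fin 3 := finProdFinEquiv.symm
    refine ⟨fun w => U (σ w).1 * U' (σ w).2, e * e', m * 3,
      fun i => D (τ i).1 * D' (τ i).2, fun i => C (τ i).1 * C' (τ i).2,
      ⟨fun w => mul_mem (hU _) (hKc _ (hU' _)), mul_mem he (hKc _ he'K),
        fun i => mul_mem (hD _) (hKc _ (hD' _)), fun i => mul_mem (hC _) (hKc _ (hC' _))⟩,
      fun w w' => ?_, ?_⟩
    · have h1 : Commute (star (U (σ w).1) * U (σ w').1) (star (U' (σ w).2)) := by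
        have c1 := hcom _ (star_mem (hU' (σ w).2)) _ (mU (σ w).1)
        have c2 := hcom _ (star_mem (hU' (σ w).2)) _ (mU (σ w').1)
        exact (c1.2.symm.mul_left c2.1.symm)
      calc star (U (σ w).1 * U' (σ w).2) * (U (σ w').1 * U' (σ w').2)
          = star (U' (σ w).2) * (star (U (σ w).1) * U (σ w').1) * U' (σ w').2 := by
            rw [star_mul]; simp only [mul_assoc]
        _ = star (U (σ w).1) * U (σ w').1 * (star (U' (σ w).2) * U' (σ w').2) := by
            rw [← h1.eq]; simp only [mul_assoc]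
        _ = _ := by
            rw [hUU, hUU']
            by_cases h : w = w'
            · simp [h, he']
            · have : (σ w).1 ≠ (σ w').1 ∨ (σ w).2 ≠ (σ w').2 := by
                by_contra h'
                push Not at h'
                exact h (σ.injective (Prod.ext h'.1 h'.2))
              rcases this with h' | h' <;> simp [h, h']
    · calc ∑ i, star (D (τ i).1 * D' (τ i).2) * (e * e') * (C (τ i).1 * C' (τ i).2)
          = ∑ p : Fin m × Fin 3, star (D p.1 * D' p.2) * (e * e') * (C p.1 * C' p.2) :=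
            τ.sum_comp fun p : Fin m × Fin 3 =>
              star (D p.1 * D' p.2) * (e * e') * (C p.1 * C' p.2)
        _ = ∑ i, ∑ j, star (D i) * e * C i * (star (D' j) * e' * C' j) := by
            rw [Fintype.sum_prod_type]
            refine Finset.sum_congr rfl fun i _ => Finset.sum_congr rfl fun j _ => ?_
            have c1 : Commute (star (D' j)) (star (D i) * e * C i) :=
              ((hcom _ (star_mem (hD' j)) _ (mD i)).2.mul_right
                (hcom _ (star_mem (hD' j)) _ me).1).mul_right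
                (hcom _ (star_mem (hD' j)) _ (mC i)).1
            have c2 : Commute e' (C i) := (hcom _ he'K _ (mC i)).1
            calc star (D i * D' j) * (e * e') * (C i * C' j)
                = star (D' j) * (star (D i) * e) * (e' * C i) * C' j := by
                  rw [star_mul]; simp only [mul_assoc]
              _ = star (D' j) * (star (D i) * e * C i) * (e' * C' j) := by
                  rw [c2.eq]; simp only [mul_assoc]
              _ = _ := by rw [c1.eq]; simp only [mul_assoc]
        _ = 1 := by simp only [← Finset.mul_sum, hDC', mul_one, hDC]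

variable [PartialOrder A] [StarOrderedRing A]

theorem norm_sub_cut_self_le {c : ℝ} (hc : 0 ≤ c) {a : A} (ha : 0 ≤ a) : ‖a - cut c a‖ ≤ c := by
  rw [cut]
  nth_rw 1 [← cfc_id' ℝ a ha.isSelfAdjoint]
  rw [← cfc_sub (fun t : ℝ => t) (fun t : ℝ => max (t - c) 0) a (by fun_prop) (by fun_prop)]
  refine norm_cfc_le hc fun t ht => ?_
  have h0 := spectrum_nonneg_of_nonneg ha ht
  rw [Real.norm_eq_abs, abs_le]
  rcases le_total t c with h | h
  · rw [max_eq_right (sub_nonpos.2 h)]; constructor <;> linarith
  · rw [max_eq_left (sub_nonneg.2 h)]; constructor <;> linarith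

/-- Uniformly bounded comparisons along a sequence of asymptotically full elements. -/
theorem compare_eventually {n : ℕ} (hn : 1 ≤ n) (hP : AmpPI (Set.univ : Set A) n) {f : A}
    (hf : 0 ≤ f) (a : ℕ →ᵇ A) (ha : ∀ i, 0 ≤ a i) {m : ℕ} (D C : Fin m → ℕ →ᵇ A)
    (hlim : Tendsto (fun i => ‖∑ j, star (D j i) * a i * C j i - f‖) atTop (𝓝 0)) {ε : ℝ}
    (hε : 0 < ε) :
    ∃ K : ℝ, 0 ≤ K ∧ ∀ᶠ i in atTop, ∃ u : Fin n → A, (∀ p, ‖u p‖ ≤ K) ∧
      ‖(∑ p, star (u p) * a i * u p) - f‖ ≤ ε := by
  set M := ∑ j, ‖D j‖ * ‖C j‖ with hM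
  have hM0 : 0 ≤ M := Finset.sum_nonneg fun j _ => by positivity
  set δ := ε / 12 with hδ
  have hδ0 : 0 < δ := by positivity
  set c := δ / (M + 1) with hc
  have hc0 : 0 < c := by positivity
  refine ⟨Real.sqrt ((‖f‖ + 4 * (3 * δ)) / c), Real.sqrt_nonneg _, ?_⟩
  filter_upwards [hlim.eventually_le_const hδ0] with i hi
  have hI := isClosedIdeal_genIdeal (cut c (a i))
  have hnear : Near (genIdeal (cut c (a i))) (2 * δ) f := by
    refine ⟨∑ j, star (D j i) * cut c (a i) * C j i, hI.sum_mem _ _ fun j _ =>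
      hI.mul_right _ _ (hI.mul_left _ _ (mem_genIdeal_self _)), ?_⟩
    refine (norm_sub_le_norm_sub_add_norm_sub f (∑ j, star (D j i) * a i * C j i) _).trans ?_
    rw [norm_sub_rev, two_mul]
    refine add_le_add hi ?_
    rw [← Finset.sum_sub_distrib]
    refine (norm_sum_le _ _).trans ((Finset.sum_le_sum (g := fun j => ‖D j‖ * c * ‖C j‖)
      fun j _ => ?_).trans ?_)
    · rw [← sub_mul, ← mul_sub]
      refine norm_mul₃_le.trans ?_
      rw [norm_star]
      gcongr
      · exact (D j).norm_coe_le_norm i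
      · exact norm_sub_cut_self_le hc0.le (ha i)
      · exact (C j).norm_coe_le_norm i
    · calc ∑ j, ‖D j‖ * c * ‖C j‖ = M * c := by
            rw [hM, Finset.sum_mul]; exact Finset.sum_congr rfl fun j _ => by ring
        _ ≤ (M + 1) * c := by gcongr; linarith
        _ = δ := by rw [hc]; field_simp
  have hdom := Near.dom hI hδ0 hf.isSelfAdjoint hnear
  rw [show 2 * δ + δ = 3 * δ by ring] at hdom
  have huniv : IsClosedIdeal (Set.univ : Set A) :=
    ⟨trivial, fun _ _ _ _ => trivial, fun _ _ _ => trivial, fun _ _ _ => trivial,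
      fun _ _ _ => trivial, isClosed_univ⟩
  obtain ⟨u, -, hu, hub⟩ := hP.compare huniv hn (Set.mem_univ f) hf (Set.mem_univ (a i)) (ha i)
    hc0 (by positivity) hdom
  refine ⟨u, fun p => ?_, hu.trans_eq (by rw [hδ]; ring)⟩
  refine Real.le_sqrt_of_sq_le ?_
  rw [le_div_iff₀ hc0]
  linarith [hub p]

omit [PartialOrder A] [StarOrderedRing A] in
/-- An orthogonal row turns a bounded comparison into one element. -/
theorem row_conj_le {n : ℕ} (u U : Fin n → A) (z a f : A) {K η ε : ℝ} (hK : 0 ≤ K)
    (hu : ∀ p, ‖u p‖ ≤ K)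
    (hU : ∀ p q, ‖star (U p) * z * U q - (if p = q then a else 0)‖ ≤ η)
    (h : ‖(∑ p, star (u p) * a * u p) - f‖ ≤ ε) :
    ‖star (∑ p, U p * u p) * z * (∑ p, U p * u p) - f‖ ≤ n * (n * (K * η * K)) + ε := by
  have e : star (∑ p, U p * u p) * z * (∑ p, U p * u p) - f =
      (∑ p, ∑ q, star (u p) * (star (U p) * z * U q - (if p = q then a else 0)) * u q) +
        ((∑ p, star (u p) * a * u p) - f) := by
    have e1 : ∑ p, ∑ q, star (u p) * (if p = q then a else 0) * u q =
        ∑ p, star (u p) * a * u p := by simp [mul_ite, ite_mul]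
    rw [← e1, ← add_sub_assoc]
    congr 1
    simp only [← Finset.sum_add_distrib, mul_sub, sub_mul, sub_add_cancel]
    simp only [star_sum, star_mul, Finset.sum_mul, Finset.mul_sum, mul_assoc]
    exact Finset.sum_comm
  rw [e]
  refine (norm_add_le _ _).trans (add_le_add ?_ h)
  simpa using norm_double_sum_le Finset.univ Finset.univ u u
    (fun p q => star (U p) * z * U q - (if p = q then a else 0)) hK (fun p _ => hu p)
    (fun p _ => hu p) (fun p _ q _ => hU p q)

omit [PartialOrder A] [StarOrderedRing A] in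
/-- Two orthogonal rows. -/
theorem row_cross_le {n : ℕ} (u w U V : Fin n → A) (z : A) {K K' η : ℝ} (hK : 0 ≤ K)
    (hu : ∀ p, ‖u p‖ ≤ K) (hw : ∀ p, ‖w p‖ ≤ K')
    (hUV : ∀ p q, ‖star (U p) * z * V q‖ ≤ η) :
    ‖star (∑ p, U p * u p) * z * (∑ p, V p * w p)‖ ≤ n * (n * (K * η * K')) := by
  have e : star (∑ p, U p * u p) * z * (∑ p, V p * w p) =
      ∑ p, ∑ q, star (u p) * (star (U p) * z * V q) * w q := by
    simp only [star_sum, star_mul, Finset.sum_mul, Finset.mul_sum, mul_assoc]
    exact Finset.sum_comm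
  rw [e]
  simpa using norm_double_sum_le Finset.univ Finset.univ u w
    (fun p q => star (U p) * z * V q) hK (fun p _ => hu p) (fun p _ => hw p)
    (fun p _ q _ => hUV p q)

omit [PartialOrder A] [StarOrderedRing A] in
/-- A central sequence passes through constants. -/
theorem centSub_commute {z : SeqQuot A atTop} (hz : z ∈ centSub A atTop) (a : A) :
    Commute z (seqMk A atTop (const ℕ a)) :=
  (starCommute_of_mem_centralizer hz ⟨a, rfl⟩).1

/-- **Absorption.** -/
theorem absorb : AbsorbStatement.{u} := by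
  intro A _ _ _ hdrop hwpi x y hx hy ε hε
  obtain ⟨n, hn, hn'⟩ := hwpi
  have hP : AmpPI (Set.univ : Set A) n := fun h _ hh δ hδ => by
    obtain ⟨r, hr⟩ := hn' h hh δ hδ
    exact ⟨r, fun _ _ => Set.mem_univ _, fun c c' => (hr c c').le⟩
  obtain ⟨U, e, m, D, C, ⟨hU, he, hD, hC⟩, hUU, hDC⟩ := exists_matrix_row hdrop (2 * n)
  have h2n : 2 * n ≤ 2 ^ (2 * n) := Nat.lt_two_pow_self.le
  let ι₁ : Fin n → Fin (2 ^ (2 * n)) := fun p => ⟨p, by omega⟩
  let ι₂ : Fin n → Fin (2 ^ (2 * n)) := fun p => ⟨n + p, by omega⟩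
  let i₀ : Fin (2 ^ (2 * n)) := ι₁ ⟨0, hn⟩
  choose U' hU' using fun w => seqMk_surjective (U w)
  choose D' hD' using fun i => seqMk_surjective (D i)
  choose C' hC' using fun i => seqMk_surjective (C i)
  let a : A → ℕ →ᵇ A := fun z => const ℕ z * (star (U' i₀) * U' i₀) * const ℕ z
  have ha : ∀ z, 0 ≤ z → ∀ i, 0 ≤ a z i := fun z hz i => by
    have h := star_mul_self_nonneg (U' i₀ i * z)
    rw [star_mul, hz.isSelfAdjoint.star_eq] at h
    simpa [a, mul_assoc] using h
  have hae : ∀ z, seqMk A atTop (a z) =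
      seqMk A atTop (const ℕ z) * e * seqMk A atTop (const ℕ z) := fun z => by
    simp only [a, map_mul, map_star, hU', hUU, if_true]
  have hlim : ∀ z, Tendsto (fun i => ‖∑ j, star (D' j i) * a z i * C' j i - z * z‖)
      atTop (𝓝 0) := by
    intro z
    have h : seqMk A atTop (∑ j, star (D' j) * a z * C' j) =
        seqMk A atTop (const ℕ (z * z)) := by
      rw [map_sum]
      simp only [map_mul, map_star, hD', hC', hae]
      rw [show seqMk A atTop (const ℕ (z * z)) =
        seqMk A atTop (const ℕ z) * seqMk A atTop (const ℕ z) by rw [← map_mul]; rfl]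
      set Z := seqMk A atTop (const ℕ z)
      calc ∑ j, star (D j) * (Z * e * Z) * C j = ∑ j, Z * (star (D j) * e * C j) * Z := by
            refine Finset.sum_congr rfl fun j _ => ?_
            have c1 : Commute (star (D j)) Z := centSub_commute (star_mem (hD j)) z
            have c2 : Commute (C j) Z := centSub_commute (hC j) z
            calc star (D j) * (Z * e * Z) * C j = star (D j) * Z * e * (Z * C j) := by
                  simp only [mul_assoc]
              _ = _ := by rw [c1.eq, ← c2.eq]; simp only [mul_assoc]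
        _ = Z * Z := by rw [← Finset.sum_mul, ← Finset.mul_sum, hDC, mul_one]
    refine (seqMk_eq_iff.1 h).congr fun i => ?_
    simp
  have hmid : ∀ z, ∀ w w', Tendsto (fun i => ‖star (U' w i) * (z * z) * U' w' i -
      (if w = w' then a z i else 0)‖) atTop (𝓝 0) := by
    intro z w w'
    have h : seqMk A atTop (star (U' w) * (const ℕ z * const ℕ z) * U' w') =
        seqMk A atTop (if w = w' then a z else 0) := by
      simp only [map_mul, map_star, hU', apply_ite (seqMk A atTop), map_zero, hae]
      set Z := seqMk A atTop (const ℕ z)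
      calc star (U w) * (Z * Z) * U w' = star (U w) * Z * (Z * U w') := by simp only [mul_assoc]
        _ = Z * (star (U w) * U w') * Z := by
            rw [(centSub_commute (star_mem (hU w)) z).eq, ← (centSub_commute (hU w') z).eq]
            simp only [Z, mul_assoc]
        _ = _ := by rw [hUU]; split_ifs <;> simp
    refine (seqMk_eq_iff.1 h).congr fun i => ?_
    split_ifs <;> simp
  have hcross : ∀ p q, Tendsto (fun i => ‖star (U' (ι₁ p) i) * (x * y) * U' (ι₂ q) i‖)
      atTop (𝓝 0) := by
    intro p q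
    have hne : ι₁ p ≠ ι₂ q := fun h => by
      have := congrArg Fin.val h
      simp only [ι₁, ι₂] at this
      omega
    have h : seqMk A atTop (star (U' (ι₁ p)) * (const ℕ x * const ℕ y) * U' (ι₂ q)) = 0 := by
      simp only [map_mul, map_star, hU']
      set X := seqMk A atTop (const ℕ x)
      set Y := seqMk A atTop (const ℕ y)
      calc star (U (ι₁ p)) * (X * Y) * U (ι₂ q) = star (U (ι₁ p)) * X * (Y * U (ι₂ q)) := by
            simp only [mul_assoc]
        _ = X * (star (U (ι₁ p)) * U (ι₂ q)) * Y := by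
            rw [(centSub_commute (star_mem (hU _)) x).eq, ← (centSub_commute (hU _) y).eq]
            simp only [X, Y, mul_assoc]
        _ = 0 := by rw [hUU, if_neg hne, mul_zero, zero_mul]
    refine (seqMk_eq_zero.1 h).congr fun i => ?_
    simp
  obtain ⟨K, hK0, hK⟩ := compare_eventually hn hP
    (by simpa [hx.isSelfAdjoint.star_eq] using star_mul_self_nonneg x) (a x) (ha x hx) D' C'
    (hlim x) (ε := ε / 4) (by positivity)
  obtain ⟨K', hK'0, hK'⟩ := compare_eventually hn hP
    (by simpa [hy.isSelfAdjoint.star_eq] using star_mul_self_nonneg y) (a y) (ha y hy) D' C'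
    (hlim y) (ε := ε / 4) (by positivity)
  set η := ε / (4 * ((n : ℝ) * (n * ((K + K') * (K + K'))) + 1)) with hη
  have hη0 : 0 < η := by positivity
  have hev1 := eventually_all.2 fun p => eventually_all.2 fun q =>
    (hmid x (ι₁ p) (ι₁ q)).eventually_le_const hη0
  have hev2 := eventually_all.2 fun p => eventually_all.2 fun q =>
    (hmid y (ι₂ p) (ι₂ q)).eventually_le_const hη0
  have hev3 := eventually_all.2 fun p => eventually_all.2 fun q =>
    (hcross p q).eventually_le_const hη0
  obtain ⟨i, ⟨u, hub, hu⟩, ⟨w, hwb, hw⟩, h1, h2, h3⟩ :=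
    (hK.and (hK'.and (hev1.and (hev2.and hev3)))).exists
  have hι₁ : ∀ p q, ι₁ p = ι₁ q ↔ p = q := fun p q => by simp [ι₁, Fin.ext_iff]
  have hι₂ : ∀ p q, ι₂ p = ι₂ q ↔ p = q := fun p q => by simp [ι₂, Fin.ext_iff]
  have hb : ∀ P Q, 0 ≤ P → P ≤ K + K' → 0 ≤ Q → Q ≤ K + K' →
      (n : ℝ) * (n * (P * η * Q)) ≤ ε / 4 := by
    intro P Q hP0 hP1 hQ0 hQ1
    set T := (n : ℝ) * (n * ((K + K') * (K + K'))) with hT
    have hT0 : 0 ≤ T := by positivity
    calc (n : ℝ) * (n * (P * η * Q)) ≤ n * (n * ((K + K') * η * (K + K'))) := by gcongr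
      _ = T / (T + 1) * (ε / 4) := by rw [hη, hT]; field_simp
      _ ≤ 1 * (ε / 4) := by gcongr; rw [div_le_one (by positivity)]; linarith
      _ = ε / 4 := one_mul _
  refine ⟨∑ p, U' (ι₁ p) i * u p, ∑ p, U' (ι₂ p) i * w p, ?_, ?_, ?_⟩
  · refine (row_conj_le u (fun p => U' (ι₁ p) i) (x * x) (a x i) (x * x) hK0 hub (fun p q => by
      simpa [hι₁] using h1 p q) hu).trans_lt ?_
    linarith [hb K K hK0 (by linarith) hK0 (by linarith)]
  · refine (row_conj_le w (fun p => U' (ι₂ p) i) (y * y) (a y i) (y * y) hK'0 hwb (fun p q => by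
      simpa [hι₂] using h2 p q) hw).trans_lt ?_
    linarith [hb K' K' hK'0 (by linarith) hK'0 (by linarith)]
  · rw [mul_assoc _ x y]
    refine (row_cross_le u w (fun p => U' (ι₁ p) i) (fun p => U' (ι₂ p) i) (x * y) hK0 hub hwb
      h3).trans_lt ?_
    linarith [hb K K' hK0 (by linarith) hK'0 (by linarith)]

end Vale.Agent.P133.NucDim
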