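import Vale.Agent.P133.NucDim.CentralDefs
import Vale.Agent.P095.Compare.Forms

/-!
P133, finite nuclear dimension: each colour of a good decomposition almost multiplies.

For the positive kernel `[[η 1, η a], [η a, η (a * a)]]` of a colour and `T` its form at `(a, -1)`,
`|η 1 * a - η a|² ≤ T`, and the forms of the colours sum to almost zero.
-/

noncomputable section

namespace Vale.Agent.P133.NucDim

open Filter Topology Vale.Agent.P095.Full Vale.Agent.P095.Compare
open scoped ComplexOrder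

universe u

variable {A : Type u} [CStarAlgebra A] [PartialOrder A] [StarOrderedRing A]

theorem exists_star_mul_of_cp {n : ℕ} {ψ : A →ₗ[ℂ] Matrix (Fin n) (Fin n) ℂ} (hψ : IsCPMap ψ)
    {a : A} (ha : 0 ≤ a) : ∃ w : Matrix (Fin n) (Fin n) ℂ, ψ a = star w * w := by
  obtain ⟨v, rfl⟩ := CStarAlgebra.nonneg_iff_eq_star_mul_self.1 ha
  obtain ⟨w, hw⟩ := hψ 1 (fun _ => v) (fun _ => 1)
  exact ⟨w, by simpa using hw⟩

/-- The kernel of a composition through matrices has positive forms. -/
theorem comp_form_nonneg {n : ℕ} {ψ : A →ₗ[ℂ] Matrix (Fin n) (Fin n) ℂ}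
    {φ : Matrix (Fin n) (Fin n) ℂ →ₗ[ℂ] A} (hψ : IsCPMap ψ) (hφ : IsCPMapMat A φ)
    {κ : Type} [Fintype κ] [DecidableEq κ] (v b : κ → A) :
    0 ≤ ∑ x, ∑ y, star (b x) * φ (ψ (star (v x) * v y)) * b y := by
  have hR : ∀ b : κ → A, 0 ≤ ∑ x, ∑ y, star (b x) * (star (v x) * v y) * b y := by
    intro b
    refine le_of_le_of_eq (star_mul_self_nonneg (∑ x, v x * b x)) ?_
    simp only [star_sum, star_mul, Finset.sum_mul_sum, mul_assoc]
  obtain ⟨Z, hZ⟩ := exists_gram
    (fun p q : κ × Fin n => ψ (star (v p.1) * v q.1) p.2 q.2)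
    (map_form_nonneg hψ (fun x y => star (v x) * v y) hR)
  obtain ⟨z, hz⟩ := exists_kraus hφ
  have e : ∀ x y, ψ (star (v x) * v y) =
      Matrix.of fun a a' => ∑ w, star (Z w (x, a)) * Z w (y, a') := fun x y => by
    ext a a'
    exact hZ (x, a) (y, a')
  simp only [e, kraus_form hz Z b]
  exact Finset.sum_nonneg fun wl _ => star_mul_self_nonneg _

/-- A positive kernel of two elements: the first row at `(a, -1)` is bounded by the form. -/
theorem row_sq_le {p q r a : A} (ha : star a = a) (hp : p ≤ 1) (hps : star p = p)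
    (hqs : star q = q)
    (h : ∀ b₁ b₂ : A,
      0 ≤ star b₁ * p * b₁ + star b₁ * q * b₂ + star b₂ * q * b₁ + star b₂ * r * b₂) :
    star (p * a - q) * (p * a - q) ≤ a * p * a - a * q - q * a + r := by
  set X := p * a - q with hX
  have h1 := h (a - X) (-1)
  have hXs : star X = a * p - q := by rw [hX, star_sub, star_mul, hps, hqs, ha]
  have e : star (a - X) * p * (a - X) + star (a - X) * q * (-1) + star (-1 : A) * q * (a - X) +
      star (-1 : A) * r * (-1) = (a * p * a - a * q - q * a + r) - star X * X -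
        (star X * X - star X * p * X) := by
    rw [star_sub, ha, star_neg, star_one]
    have e1 : star X * p * a - star X * q = star X * X := by
      rw [mul_assoc, ← mul_sub, ← hX]
    have e2 : a * p * X - q * X = star X * X := by rw [← sub_mul, ← hXs]
    calc (a - star X) * p * (a - X) + (a - star X) * q * (-1) + (-1) * q * (a - X) + (-1) * r * (-1)
        = (a * p * a - a * q - q * a + r) - (star X * p * a - star X * q) -
            (a * p * X - q * X) + star X * p * X := by noncomm_ring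
      _ = _ := by rw [e1, e2]; abel
  rw [e] at h1
  have h2 : star X * p * X ≤ star X * X := by
    simpa using star_left_conjugate_le_conjugate hp X
  rw [← sub_nonneg]
  refine h1.trans ?_
  exact sub_le_self _ (sub_nonneg.2 h2)

/-- A decomposition, read as colours. -/
theorem exists_colours {d L : ℕ} (col : Fin L → Fin (d + 1)) (n : Fin L → ℕ)
    (ψ : ∀ l, A →ₗ[ℂ] Matrix (Fin (n l)) (Fin (n l)) ℂ)
    (φ : ∀ l, Matrix (Fin (n l)) (Fin (n l)) ℂ →ₗ[ℂ] A)
    (h1 : ∀ l, IsCPMap (ψ l) ∧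
      (∃ w : Matrix (Fin (n l)) (Fin (n l)) ℂ, 1 - ψ l 1 = star w * w) ∧
      IsCPMapMat A (φ l) ∧ IsPos (1 - φ l 1))
    (h2 : ∀ l, ∀ a b : Matrix (Fin (n l)) (Fin (n l)) ℂ,
      star a * a * (star b * b) = 0 → φ l (star a * a) * φ l (star b * b) = 0)
    (h3 : ∀ l l', col l = col l' → l ≠ l' → φ l 1 * φ l' 1 = 0) :
    ∃ D : Colours A d, (∀ x, ∑ c, D.eta c x = ∑ l, φ l (ψ l x)) ∧
      (∀ c, D.eta c 1 ≤ 1) ∧ (∀ c (x : A), 0 ≤ x → x ≤ 1 → 0 ≤ D.eta c x) ∧
      ∀ c (a b₁ b₂ : A), star a = a →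
        0 ≤ star b₁ * D.eta c 1 * b₁ + star b₁ * D.eta c a * b₂ + star b₂ * D.eta c a * b₁ +
          star b₂ * D.eta c (a * a) * b₂ := by
  classical
  choose U z hU hz using fun l => exists_units (h1 l).2.2.1 (h1 l).2.2.2 (h2 l)
  have happ : ∀ l m, (U l).app m = φ l m := fun l m => by rw [hU, Units.app]
  have hH : ∀ l, (U l).H = φ l 1 := fun l => by
    rw [hU, Units.H]
    simp [Matrix.one_apply]
  have hpos : ∀ l w, 0 ≤ φ l (star w * w) := fun l w =>
    happ l _ ▸ (U l).app_nonneg (z l) (hz l) w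
  have hmono : ∀ l (a : A), 0 ≤ a → a ≤ 1 →
      0 ≤ φ l (ψ l a) ∧ φ l (ψ l a) ≤ φ l (ψ l 1) := by
    intro l a ha ha1
    obtain ⟨w, hw⟩ := exists_star_mul_of_cp (h1 l).1 ha
    obtain ⟨w', hw'⟩ := exists_star_mul_of_cp (h1 l).1 (sub_nonneg.2 ha1)
    refine ⟨hw ▸ hpos l w, sub_nonneg.1 ?_⟩
    rw [← map_sub, ← map_sub, hw']
    exact hpos l w'
  have hone : ∀ l, φ l (ψ l 1) ≤ φ l 1 := fun l => by
    obtain ⟨w, hw⟩ := (h1 l).2.1
    rw [← sub_nonneg, ← map_sub, hw]
    exact hpos l w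
  let D : Colours A d :=
    { L := L
      col := col
      size := n
      U := U
      m := ψ
      orth := fun l l' hc hne => by rw [hH, hH]; exact h3 l l' hc hne
      sq := fun l a ha => exists_star_mul_of_cp (h1 l).1 ha
      mono := fun l a ha ha1 => by simp only [happ]; exact hmono l a ha ha1
      one_le := fun l => by rw [happ, hH]; exact hone l }
  have heta : ∀ c x, D.eta c x =
      ∑ l ∈ Finset.univ.filter (fun l => col l = c), φ l (ψ l x) := fun c x =>
    Finset.sum_congr rfl fun l _ => happ l _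
  refine ⟨D, fun x => ?_, fun c => ?_, fun c x hx hx1 => ?_, fun c a b₁ b₂ ha => ?_⟩
  · simp only [heta]
    exact Finset.sum_fiberwise Finset.univ col fun l => φ l (ψ l x)
  · have h0 : ∀ l, 0 ≤ φ l 1 := fun l => hH l ▸ (U l).H_nonneg
    have hs : ∀ l, star (φ l 1) = φ l 1 := fun l => (IsSelfAdjoint.of_nonneg (h0 l)).star_eq
    have hn : ‖∑ l ∈ Finset.univ.filter (fun l => col l = c), φ l 1‖ ≤ 1 := by
      refine norm_sum_orth_le _ _ (fun i hi j hj hij => ?_) (fun i hi j hj hij => ?_) zero_le_one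
        fun i _ => hH i ▸ (U i).norm_H_le
      all_goals
        rw [hs]
        exact h3 i j ((Finset.mem_filter.1 hi).2.trans (Finset.mem_filter.1 hj).2.symm) hij
    rw [heta]
    exact (Finset.sum_le_sum fun l _ => hone l).trans
      ((CStarAlgebra.norm_le_one_iff_of_nonneg _ (Finset.sum_nonneg fun l _ => h0 l)).1 hn)
  · rw [heta]
    exact Finset.sum_nonneg fun l _ => (hmono l x hx hx1).1
  · simp only [heta, Finset.mul_sum, Finset.sum_mul, ← Finset.sum_add_distrib]
    refine Finset.sum_nonneg fun l _ => ?_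
    refine le_of_le_of_eq (comp_form_nonneg (h1 l).1 (h1 l).2.2.1 ![(1 : A), a] ![b₁, b₂]) ?_
    simp [Fin.sum_univ_two, ha, add_assoc]

/-- Each colour almost multiplies by `a` when the sum almost fixes `1`, `a` and `a * a`. -/
theorem eta_mul_close {d : ℕ} (D : Colours A d) (h1 : ∀ c, D.eta c 1 ≤ 1)
    (h0 : ∀ c (x : A), 0 ≤ x → x ≤ 1 → 0 ≤ D.eta c x)
    (hform : ∀ c (a b₁ b₂ : A), star a = a →
      0 ≤ star b₁ * D.eta c 1 * b₁ + star b₁ * D.eta c a * b₂ + star b₂ * D.eta c a * b₁ +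
        star b₂ * D.eta c (a * a) * b₂)
    {a : A} (ha : 0 ≤ a) (ha1 : a ≤ 1) {δ : ℝ} (e1 : ‖∑ c, D.eta c 1 - 1‖ ≤ δ)
    (ea : ‖∑ c, D.eta c a - a‖ ≤ δ) (ea2 : ‖∑ c, D.eta c (a * a) - a * a‖ ≤ δ)
    (c : Fin (d + 1)) :
    ‖D.eta c 1 * a - D.eta c a‖ ≤ Real.sqrt (4 * δ) ∧
      ‖a * D.eta c 1 - D.eta c a‖ ≤ Real.sqrt (4 * δ) := by
  have has : star a = a := (IsSelfAdjoint.of_nonneg ha).star_eq
  have hps : ∀ c, star (D.eta c 1) = D.eta c 1 := fun c =>
    (IsSelfAdjoint.of_nonneg (h0 c 1 zero_le_one le_rfl)).star_eq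
  have hqs : ∀ c, star (D.eta c a) = D.eta c a := fun c =>
    (IsSelfAdjoint.of_nonneg (h0 c a ha ha1)).star_eq
  set T : Fin (d + 1) → A := fun c =>
    a * D.eta c 1 * a - a * D.eta c a - D.eta c a * a + D.eta c (a * a) with hT
  set X := D.eta c 1 * a - D.eta c a
  have hrow : ∀ c, star (D.eta c 1 * a - D.eta c a) * (D.eta c 1 * a - D.eta c a) ≤ T c := fun c =>
    row_sq_le has (h1 c) (hps c) (hqs c) fun b₁ b₂ => hform c a b₁ b₂ has
  have hle : star X * X ≤ ∑ c, T c := (hrow c).trans (Finset.single_le_sum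
    (fun c _ => (star_mul_self_nonneg _).trans (hrow c)) (Finset.mem_univ c))
  have hsum : ∑ c, T c = a * (∑ c, D.eta c 1 - 1) * a - a * (∑ c, D.eta c a - a) -
      (∑ c, D.eta c a - a) * a + (∑ c, D.eta c (a * a) - a * a) := by
    simp only [hT, Finset.sum_add_distrib, Finset.sum_sub_distrib, ← Finset.mul_sum,
      ← Finset.sum_mul]
    noncomm_ring
  have hna : ‖a‖ ≤ 1 := (CStarAlgebra.norm_le_one_iff_of_nonneg a ha).2 ha1
  have hT4 : ‖∑ c, T c‖ ≤ 4 * δ := by
    have hδ : 0 ≤ δ := (norm_nonneg _).trans e1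
    rw [hsum]
    refine (norm_add_le _ _).trans ?_
    refine le_trans (add_le_add ((norm_sub_le _ _).trans (add_le_add ((norm_sub_le _ _).trans
      (add_le_add ?_ ?_)) ?_)) ea2) (le_of_eq (show δ + δ + δ + δ = 4 * δ by ring))
    · calc ‖a * (∑ c, D.eta c 1 - 1) * a‖ ≤ ‖a‖ * ‖∑ c, D.eta c 1 - 1‖ * ‖a‖ :=
            (norm_mul_le _ _).trans (mul_le_mul_of_nonneg_right (norm_mul_le _ _) (norm_nonneg _))
        _ ≤ 1 * δ * 1 := by gcongr
        _ = δ := by ring
    · exact (norm_mul_le _ _).trans ((mul_le_mul hna ea (norm_nonneg _) zero_le_one).trans_eq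
        (one_mul δ))
    · exact (norm_mul_le _ _).trans ((mul_le_mul ea hna (norm_nonneg _) hδ).trans_eq (mul_one δ))
  have hX : ‖X‖ ≤ Real.sqrt (4 * δ) := by
    refine Real.le_sqrt_of_sq_le ?_
    rw [sq, ← CStarRing.norm_star_mul_self]
    exact (CStarAlgebra.norm_le_norm_of_nonneg_of_le (star_mul_self_nonneg X) hle).trans hT4
  refine ⟨hX, ?_⟩
  have e : a * D.eta c 1 - D.eta c a = star X := by rw [star_sub, star_mul, hps, hqs, has]
  rw [e, norm_star]
  exact hX

/-- The decompositions from finite nuclear dimension, with each colour almost a multiplication. -/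
theorem approx : ApproxStatement.{u} := by
  intro A _ _ _ _ _ hnd
  classical
  obtain ⟨d, hd⟩ := hnd
  have : SecondCountableTopology A := UniformSpace.secondCountable_of_separable A
  have : Nonempty {a : A // 0 ≤ a ∧ a ≤ 1} := ⟨⟨0, le_rfl, zero_le_one⟩⟩
  obtain ⟨e, he⟩ := TopologicalSpace.exists_dense_seq {a : A // 0 ≤ a ∧ a ≤ 1}
  set S : Set A := insert 1 (Set.range fun j => (e j : A)) with hS
  set X : ℕ → Finset A := fun n =>
    let Y := insert 1 ((Finset.range (n + 1)).image fun j => (e j : A))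
    Y ∪ Y.image fun a => a * a with hXdef
  choose L col sz ψ φ hh using fun n : ℕ => hd (X n) (1 / ((n : ℝ) + 1)) (by positivity)
  choose D hsum hle1 hnn hform using fun n : ℕ =>
    exists_colours (col n) (sz n) (ψ n) (φ n) (hh n).1 (hh n).2.1 (hh n).2.2.1
  have hSc : ∀ a ∈ S, 0 ≤ a ∧ a ≤ 1 := by
    rintro a (rfl | ⟨j, rfl⟩)
    exacts [⟨zero_le_one, le_rfl⟩, (e j).2]
  refine ⟨d, S, D, ⟨Set.mem_insert _ _, hSc⟩, fun f hf hcomm a => ?_, fun a ha => ?_⟩
  · obtain ⟨C, hC⟩ := hf
    have hC0 : 0 ≤ C := (norm_nonneg _).trans (hC 0)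
    have hball : ∀ a : A, 0 ≤ a → a ≤ 1 →
        Tendsto (fun n => ‖a * f n - f n * a‖) atTop (𝓝 0) := by
      intro a h0 h1
      rw [Metric.tendsto_nhds]
      intro ε hε
      obtain ⟨j, hj⟩ := Metric.denseRange_iff.1 he ⟨a, h0, h1⟩ (ε / (4 * (C + 1))) (by positivity)
      rw [Subtype.dist_eq, dist_eq_norm] at hj
      filter_upwards [(Metric.tendsto_nhds.1 (hcomm (e j : A) (Or.inr ⟨j, rfl⟩))) (ε / 2)
        (half_pos hε)] with n hn
      rw [dist_zero_right, norm_norm] at hn ⊢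
      rw [show a * f n - f n * a = ((a - e j) * f n - f n * (a - e j)) +
        ((e j : A) * f n - f n * (e j : A)) by noncomm_ring]
      have h2 : ‖(a - e j) * f n - f n * (a - e j)‖ ≤ 2 * (ε / (4 * (C + 1))) * C := by
        refine (norm_sub_le _ _).trans ?_
        have i1 : ‖(a - e j) * f n‖ ≤ ε / (4 * (C + 1)) * C :=
          (norm_mul_le _ _).trans (mul_le_mul hj.le (hC n) (norm_nonneg _) (by positivity))
        have i2 : ‖f n * (a - e j)‖ ≤ C * (ε / (4 * (C + 1))) :=
          (norm_mul_le _ _).trans (mul_le_mul (hC n) hj.le (norm_nonneg _) hC0)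
        linarith
      have h3 : 2 * (ε / (4 * (C + 1))) * C < ε / 2 := by
        rw [show 2 * (ε / (4 * (C + 1))) * C = ε / 2 * (C / (C + 1)) by field_simp; ring]
        exact mul_lt_of_lt_one_right (half_pos hε) ((div_lt_one (by positivity)).2 (lt_add_one C))
      linarith [norm_add_le ((a - e j) * f n - f n * (a - e j))
        ((e j : A) * f n - f n * (e j : A))]
    let M : Submodule ℂ A :=
      { carrier := {a | Tendsto (fun n => ‖a * f n - f n * a‖) atTop (𝓝 0)}
        zero_mem' := by simp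
        add_mem' := fun {x y} hx hy => squeeze_zero (fun n => norm_nonneg _)
          (g := fun n => ‖x * f n - f n * x‖ + ‖y * f n - f n * y‖) (fun n => by
            rw [show (x + y) * f n - f n * (x + y) = (x * f n - f n * x) + (y * f n - f n * y) by
              noncomm_ring]
            exact norm_add_le _ _) (by simpa using hx.add hy)
        smul_mem' := fun s x hx => squeeze_zero (fun n => norm_nonneg _)
          (g := fun n => ‖s‖ * ‖x * f n - f n * x‖) (fun n => by
            rw [smul_mul_assoc, mul_smul_comm, ← smul_sub, norm_smul]) (by simpa using hx.const_mul ‖s‖) }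
    have hpos : ∀ x : A, 0 ≤ x → x ∈ M := by
      intro x hx
      have hc : (0 : ℝ) < ‖x‖ + 1 := by positivity
      have hx' : (‖x‖ + 1)⁻¹ • x ∈ M := by
        have h0 : 0 ≤ (‖x‖ + 1)⁻¹ • x := smul_nonneg (by positivity) hx
        refine hball _ h0 ((CStarAlgebra.norm_le_one_iff_of_nonneg _ h0).1 ?_)
        rw [norm_smul, Real.norm_eq_abs, abs_of_pos (inv_pos.2 hc), inv_mul_le_one₀ hc]
        linarith
      have := M.smul_mem ((‖x‖ + 1 : ℝ) : ℂ) hx'
      rwa [Complex.coe_smul, smul_smul, mul_inv_cancel₀ hc.ne', one_smul] at this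
    have : a ∈ Submodule.span ℂ {z : A | 0 ≤ z} := by rw [CStarAlgebra.span_nonneg]; trivial
    exact Submodule.span_le.2 hpos this
  · have hev : ∀ᶠ n in atTop, (1 : A) ∈ X n ∧ a ∈ X n ∧ a * a ∈ X n := by
      rcases ha with rfl | ⟨j, rfl⟩
      · exact Eventually.of_forall fun n => by simp [hXdef]
      · filter_upwards [eventually_ge_atTop j] with n hn
        have hm : (e j : A) ∈ insert (1 : A) ((Finset.range (n + 1)).image fun j => (e j : A)) :=
          Finset.mem_insert_of_mem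
            (Finset.mem_image_of_mem (fun j => (e j : A)) (Finset.mem_range.2 (Nat.lt_succ_of_le hn)))
        exact ⟨by simp [hXdef], Finset.mem_union_left _ hm,
          Finset.mem_union_right _ (Finset.mem_image_of_mem (fun a => a * a) hm)⟩
    have hclose : ∀ n x, x ∈ X n → ‖∑ c, (D n).eta c x - x‖ ≤ 1 / ((n : ℝ) + 1) := fun n x hx => by
      rw [hsum]
      exact (hh n).2.2.2 x hx
    have h10 := tendsto_one_div_add_atTop_nhds_zero_nat (𝕜 := ℝ)
    have hs0 : Tendsto (fun n : ℕ => Real.sqrt (4 * (1 / ((n : ℝ) + 1)))) atTop (𝓝 0) := by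
      simpa using (h10.const_mul 4).sqrt
    have hb := hev.mono fun n hn => eta_mul_close (D n) (hle1 n) (hnn n) (hform n) (hSc a ha).1
      (hSc a ha).2 (hclose n 1 hn.1) (hclose n a hn.2.1) (hclose n _ hn.2.2)
    refine ⟨fun c => ⟨?_, ?_⟩, ?_⟩
    · exact squeeze_zero' (Eventually.of_forall fun n => norm_nonneg _)
        (hb.mono fun n hn => (hn c).1) hs0
    · exact squeeze_zero' (Eventually.of_forall fun n => norm_nonneg _)
        (hb.mono fun n hn => (hn c).2) hs0
    · exact squeeze_zero' (Eventually.of_forall fun n => norm_nonneg _)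
        (hev.mono fun n hn => hclose n a hn.2.1) h10

end Vale.Agent.P133.NucDim
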