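import Vale.Agent.P133.NucDim.OrderZero
import Vale.Agent.P133.FinDim.Comparison
import Vale.Agent.P101.Quotient

/-!
P133, finite nuclear dimension: in a weakly purely infinite algebra the cube of a spectral cut of
an element is uniformly a short sum of products through square-zero elements of a slightly larger
corner.
-/

noncomputable section

namespace Vale.Agent.P133.NucDim

open Vale.Agent.P133.FinDim Vale.Agent.P101 Filter Topology
open scoped BoundedContinuousFunction ComplexOrder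

universe u

/-- Five nested cut-off functions; each is one on the support of the next. -/
def lev (i : ℕ) : ℝ → ℝ := halveRampN ((2 : ℝ) ^ i / 128) ((2 : ℝ) ^ (i + 1) / 128)
where
  /-- A ramp from `0` at `a` to `1` at `b`. -/
  halveRampN (a b t : ℝ) : ℝ := max 0 (min 1 ((t - a) / (b - a)))

theorem continuous_lev (i : ℕ) : Continuous (lev i) := by
  unfold lev lev.halveRampN; fun_prop

theorem lev_mem (i : ℕ) (t : ℝ) : 0 ≤ lev i t ∧ lev i t ≤ 1 :=
  ⟨le_max_left _ _, max_le zero_le_one (min_le_left _ _)⟩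

theorem lev_eq_zero {i : ℕ} {t : ℝ} (h : t ≤ 2 ^ i / 128) : lev i t = 0 := by
  refine max_eq_left ((min_le_right _ _).trans (div_nonpos_of_nonpos_of_nonneg (by linarith) ?_))
  have : (0 : ℝ) < 2 ^ i := by positivity
  rw [pow_succ]; linarith

theorem lev_eq_one {i : ℕ} {t : ℝ} (h : (2 : ℝ) ^ (i + 1) / 128 ≤ t) : lev i t = 1 := by
  have h1 : (0 : ℝ) < 2 ^ i := by positivity
  have h2 : 1 ≤ (t - 2 ^ i / 128) / ((2 : ℝ) ^ (i + 1) / 128 - 2 ^ i / 128) := by
    rw [le_div_iff₀ (by rw [pow_succ]; linarith)]; linarith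
  simp [lev, lev.halveRampN, min_eq_left h2]

theorem lev_mul_lev {i j : ℕ} (h : i < j) (t : ℝ) : lev i t * lev j t = lev j t := by
  rcases le_total t (2 ^ j / 128) with ht | ht
  · rw [lev_eq_zero ht, mul_zero]
  · rw [lev_eq_one (le_trans ?_ ht), one_mul]
    gcongr
    · norm_num
    · omega

section Commute

variable {B : Type u} [CStarAlgebra B] [PartialOrder B] [StarOrderedRing B]

/-- An element `a` with `f(k) a f'(k) = 0` for disjoint `f`, `f'` commutes with `k`. -/
theorem mul_comm_of_disjoint {k a : B} (hk : IsSelfAdjoint k) (hk1 : ‖k‖ ≤ 1)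
    (h : ∀ f f' : ℝ → ℝ, Continuous f → Continuous f' → (∀ t, f t * f' t = 0) →
      cfc f k * a * cfc f' k = 0) : k * a = a * k := by
  rw [← sub_eq_zero, ← norm_le_zero_iff]
  by_contra hpos
  rw [not_le] at hpos
  set D := k * a - a * k with hD
  obtain ⟨m, hm⟩ := exists_nat_gt (27 * ‖a‖ / ‖D‖)
  have hm0 : (0 : ℝ) < m := lt_of_le_of_lt (by positivity) hm
  let R : ℕ → ℝ → ℝ := fun i t => max 0 (min 1 ((t + 1) * m - i + 1))
  let φ : ℕ → ℝ → ℝ := fun i t => R i t - R (i + 1) t
  have hφc : ∀ i, Continuous (φ i) := fun i => by simp only [φ, R]; fun_prop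
  have hφz : ∀ i t, φ i t ≠ 0 → |(t + 1) * m - i| < 1 := by
    intro i t hne
    by_contra hx
    rw [not_lt, le_abs] at hx
    refine hne ?_
    simp only [φ, R, Nat.cast_succ]
    rcases hx with hx | hx
    · rw [min_eq_left (by linarith), min_eq_left (by linarith), sub_self]
    · rw [max_eq_left ((min_le_right _ _).trans (by linarith)),
        max_eq_left ((min_le_right _ _).trans (by linarith)), sub_self]
  have hφ01 : ∀ i t, |φ i t| ≤ 1 := by
    intro i t
    have b1 : ∀ j, 0 ≤ R j t ∧ R j t ≤ 1 := fun j =>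
      ⟨le_max_left _ _, max_le zero_le_one (min_le_left _ _)⟩
    rw [abs_le]
    constructor <;> simp only [φ] <;> linarith [(b1 i).1, (b1 i).2, (b1 (i + 1)).1, (b1 (i + 1)).2]
  have hfar : ∀ i j : ℕ, i + 2 ≤ j ∨ j + 2 ≤ i → ∀ t, φ i t * φ j t = 0 := by
    intro i j hij t
    by_contra hne
    have h1 := abs_lt.1 (hφz i t (left_ne_zero_of_mul hne))
    have h2 := abs_lt.1 (hφz j t (right_ne_zero_of_mul hne))
    rcases hij with hij | hij
    · have : (i : ℝ) + 2 ≤ j := by exact_mod_cast hij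
      linarith
    · have : (j : ℝ) + 2 ≤ i := by exact_mod_cast hij
      linarith
  set p : ℕ → B := fun i => cfc (φ i) k with hp
  have hps : ∀ i, star (p i) = p i := fun i => (cfc_predicate (φ i) k).star_eq
  have hpp : ∀ i j, i + 2 ≤ j ∨ j + 2 ≤ i → p i * p j = 0 := by
    intro i j hij
    simp only [hp]
    rw [← cfc_mul (φ i) (φ j) k (hφc i).continuousOn (hφc j).continuousOn]
    simp only [hfar i j hij, cfc_const_zero]
  have hpa : ∀ i j, i + 2 ≤ j ∨ j + 2 ≤ i → p i * a * p j = 0 := fun i j hij =>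
    h _ _ (hφc i) (hφc j) (hfar i j hij)
  have hn1 : ∀ i, ‖p i‖ ≤ 1 := fun i => norm_cfc_le zero_le_one fun t _ => hφ01 i t
  have hspec : ∀ t ∈ spectrum ℝ k, |t| ≤ 1 := fun t ht => by
    rcases subsingleton_or_nontrivial B with hB | hB
    · simp [spectrum.of_subsingleton] at ht
    exact (Real.norm_eq_abs t) ▸ (spectrum.norm_le_norm_of_mem ht).trans hk1
  set L := 2 * m + 1 with hL
  have hsum : ∑ i ∈ Finset.range L, p i = 1 := by
    rw [hp, ← cfc_sum φ k _ (fun i _ => (hφc i).continuousOn), ← cfc_const_one ℝ k]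
    refine cfc_congr fun t ht => ?_
    rw [Finset.sum_apply, Finset.sum_range_sub' (fun i => R i t)]
    have := abs_le.1 (hspec t ht)
    have e1 : R 0 t = 1 := by
      simp only [R, Nat.cast_zero, sub_zero]
      rw [min_eq_left (by nlinarith), max_eq_right zero_le_one]
    have e2 : R L t = 0 := by
      simp only [R, hL]
      refine max_eq_left ((min_le_right _ _).trans ?_)
      push_cast
      nlinarith
    rw [e1, e2, sub_zero]
  set c : ℕ → ℝ := fun i => (i : ℝ) / m - 1 with hc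
  have hpk : ∀ i, p i * k = k * p i ∧ ‖p i * k - c i • p i‖ ≤ (m : ℝ)⁻¹ := by
    intro i
    refine ⟨((Commute.refl k).cfc_real (φ i)).eq, ?_⟩
    simp only [hp]
    rw [show cfc (φ i) k * k - c i • cfc (φ i) k = cfc (fun t => φ i t * t - c i • φ i t) k by
      rw [cfc_sub (fun t => φ i t * t) (fun t => c i • φ i t) k (by fun_prop) (by fun_prop),
        cfc_mul (φ i) (fun t => t) k (hφc i).continuousOn continuousOn_id, cfc_id' ℝ k hk,
        cfc_smul (c i) (φ i) k (hφc i).continuousOn]]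
    refine norm_cfc_le (by positivity) fun t _ => ?_
    rw [Real.norm_eq_abs, smul_eq_mul,
      show φ i t * t - c i * φ i t = φ i t * (((t + 1) * m - i) * (m : ℝ)⁻¹) by
        rw [hc]; field_simp; ring, abs_mul, abs_mul, abs_of_pos (inv_pos.2 hm0)]
    by_cases h0 : φ i t = 0
    · simp [h0]
    · calc |φ i t| * (|(t + 1) * m - i| * (m : ℝ)⁻¹) ≤ 1 * (1 * (m : ℝ)⁻¹) := by
            gcongr
            · exact hφ01 i t
            · exact (hφz i t h0).le
        _ = _ := by ring
  set T : ℕ × ℕ → B := fun x => p x.1 * D * p x.2 with hT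
  have hTn : ∀ i j, i ≤ j + 1 → j ≤ i + 1 → ‖T (i, j)‖ ≤ 3 * ‖a‖ * (m : ℝ)⁻¹ := by
    intro i j h1 h2
    have e : T (i, j) = (p i * k - c i • p i) * a * p j - p i * a * (p j * k - c j • p j) +
        (c i - c j) • (p i * a * p j) := by
      simp only [hT, hD, (hpk j).1, mul_sub, sub_mul, smul_mul_assoc, mul_smul_comm, sub_smul,
        mul_assoc]
      abel
    have hcd : |c i - c j| ≤ (m : ℝ)⁻¹ := by
      have a1 : (i : ℝ) ≤ j + 1 := by exact_mod_cast h1
      have a2 : (j : ℝ) ≤ i + 1 := by exact_mod_cast h2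
      rw [hc, show (i : ℝ) / m - 1 - ((j : ℝ) / m - 1) = ((i : ℝ) - j) * (m : ℝ)⁻¹ by ring, abs_mul,
        abs_of_pos (inv_pos.2 hm0)]
      exact mul_le_of_le_one_left (by positivity) (abs_le.2 ⟨by linarith, by linarith⟩)
    rw [e]
    refine (norm_add_le _ _).trans ((add_le_add ((norm_sub_le _ _).trans
      (add_le_add norm_mul₃_le norm_mul₃_le)) (norm_smul_le _ _)).trans ?_)
    rw [Real.norm_eq_abs]
    calc ‖p i * k - c i • p i‖ * ‖a‖ * ‖p j‖ + ‖p i‖ * ‖a‖ * ‖p j * k - c j • p j‖ +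
          |c i - c j| * ‖p i * a * p j‖
        ≤ (m : ℝ)⁻¹ * ‖a‖ * 1 + 1 * ‖a‖ * (m : ℝ)⁻¹ + (m : ℝ)⁻¹ * (1 * ‖a‖ * 1) := by
          gcongr
          · exact (hpk i).2
          · exact hn1 j
          · exact hn1 i
          · exact (hpk j).2
          · exact norm_mul₃_le.trans (by gcongr <;> exact hn1 _)
      _ = _ := by ring
  have hT0 : ∀ i j, i + 2 ≤ j ∨ j + 2 ≤ i → T (i, j) = 0 := fun i j hij => by
    have e : T (i, j) = k * (p i * a * p j) - p i * a * p j * k := by
      calc T (i, j) = p i * k * a * p j - p i * a * (k * p j) := by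
            simp only [hT, hD]; noncomm_ring
        _ = _ := by rw [(hpk i).1, ← (hpk j).1]; noncomm_ring
    rw [e, hpa i j hij, mul_zero, zero_mul, sub_zero]
  set s := Finset.range L ×ˢ Finset.range L
  have hDs : D = ∑ x ∈ s, T x := by
    rw [Finset.sum_product]
    calc D = (∑ i ∈ Finset.range L, p i) * D * ∑ j ∈ Finset.range L, p j := by simp [hsum]
      _ = _ := by simp only [hT, Finset.sum_mul, Finset.mul_sum]; rw [Finset.sum_comm]
  have hfib : ∀ c' : Fin 3 × Fin 3,
      ‖∑ x ∈ s with ((⟨x.1 % 3, Nat.mod_lt _ (by norm_num)⟩ : Fin 3),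
        (⟨x.2 % 3, Nat.mod_lt _ (by norm_num)⟩ : Fin 3)) = c', T x‖ ≤ 3 * ‖a‖ * (m : ℝ)⁻¹ := by
    intro c'
    classical
    rw [← Finset.sum_filter_ne_zero]
    have hnear : ∀ x : ℕ × ℕ, T x ≠ 0 → x.1 ≤ x.2 + 1 ∧ x.2 ≤ x.1 + 1 := fun x hx => by
      by_contra hc
      exact hx (hT0 x.1 x.2 (by omega))
    refine norm_sum_orth_le _ _ (fun x hx y hy hxy => ?_) (fun x hx y hy hxy => ?_)
      (by positivity) fun x hx => ?_
    all_goals simp only [Finset.mem_filter, Prod.ext_iff, Fin.ext_iff] at hx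
    all_goals obtain ⟨⟨-, hx1, hx2⟩, hx0⟩ := hx
    all_goals have hxn := hnear x hx0
    · simp only [Finset.mem_filter, Prod.ext_iff, Fin.ext_iff] at hy
      obtain ⟨⟨-, hy1, hy2⟩, hy0⟩ := hy
      have hyn := hnear y hy0
      have hne : x.1 ≠ y.1 ∨ x.2 ≠ y.2 := by
        by_contra hc; exact hxy (Prod.ext (by omega) (by omega))
      simp only [hT, star_mul, hps]
      calc p x.2 * (star D * p x.1) * (p y.1 * D * p y.2)
          = p x.2 * star D * (p x.1 * p y.1) * D * p y.2 := by noncomm_ring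
        _ = 0 := by rw [hpp _ _ (by omega)]; noncomm_ring
    · simp only [Finset.mem_filter, Prod.ext_iff, Fin.ext_iff] at hy
      obtain ⟨⟨-, hy1, hy2⟩, hy0⟩ := hy
      have hyn := hnear y hy0
      have hne : x.1 ≠ y.1 ∨ x.2 ≠ y.2 := by
        by_contra hc; exact hxy (Prod.ext (by omega) (by omega))
      simp only [hT, star_mul, hps]
      calc p x.1 * D * p x.2 * (p y.2 * (star D * p y.1))
          = p x.1 * D * (p x.2 * p y.2) * star D * p y.1 := by noncomm_ring
        _ = 0 := by rw [hpp _ _ (by omega)]; noncomm_ring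
    · exact hTn x.1 x.2 hxn.1 hxn.2
  have hbound : ‖D‖ ≤ 27 * ‖a‖ * (m : ℝ)⁻¹ := by
    rw [hDs, ← Finset.sum_fiberwise s (fun x => ((⟨x.1 % 3, Nat.mod_lt _ (by norm_num)⟩ : Fin 3),
        (⟨x.2 % 3, Nat.mod_lt _ (by norm_num)⟩ : Fin 3))) T]
    refine (norm_sum_le _ _).trans ((Finset.sum_le_sum fun c' _ => hfib c').trans (le_of_eq ?_))
    simp; ring
  rw [← div_eq_mul_inv, le_div_iff₀ hm0] at hbound
  rw [div_lt_iff₀ hpos] at hm
  linarith

end Commute

section Rank

/-- A product through fewer indices has zero determinant. -/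
theorem det_narrow {R : Type*} [CommRing R] {n : ℕ} (hn : 1 ≤ n)
    (V : Matrix (Fin n × Fin 2) (Fin n) R) (W : Matrix (Fin n) (Fin n × Fin 2) R) :
    (V * W).det = 0 := by
  let V' : Matrix (Fin n × Fin 2) (Fin n × Fin 2) R :=
    Matrix.of fun i q => if q.2 = 0 then V i q.1 else 0
  let W' : Matrix (Fin n × Fin 2) (Fin n × Fin 2) R := Matrix.of fun q j => W q.1 j
  have e : V * W = V' * W' := by
    ext i j
    simp [Matrix.mul_apply, V', W', Fintype.sum_prod_type]
  rw [e, Matrix.det_mul, Matrix.det_eq_zero_of_column_eq_zero (⟨0, hn⟩, 1) (fun i => by simp [V']),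
    zero_mul]

variable {B : Type u} [CStarAlgebra B]

/-- A self-adjoint nilpotent vanishes. -/
theorem eq_zero_of_pow_eq_zero_sa {C : B} (hC : IsSelfAdjoint C) {k : ℕ} (h : C ^ k = 0) :
    C = 0 := by
  have hk : C ^ 2 ^ k = 0 := pow_eq_zero_of_le Nat.lt_two_pow_self.le h
  have := hC.nnnorm_pow_two_pow k
  rw [hk, nnnorm_zero] at this
  exact nnnorm_eq_zero.1 (pow_eq_zero_iff (by positivity) |>.1 this.symm)

/-- Pairwise commuting elements cannot carry `n + n` approximate copies in `n` rows. -/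
theorem eq_zero_of_copies {n : ℕ} (hn : 1 ≤ n) (S : Set B) (hS : ∀ x ∈ S, ∀ y ∈ S, x * y = y * x)
    (hstar : ∀ x ∈ S, star x ∈ S) {G C : B} (hG : G ∈ S) (hC : C ∈ S) (hCs : IsSelfAdjoint C)
    (h : ∀ η : ℝ, 0 < η → ∃ q : Fin n → (Fin n × Fin 2) → B, (∀ p c, q p c ∈ S) ∧
      ∀ c c', ‖(∑ p, star (q p c) * G * q p c') - (if c = c' then C else 0)‖ ≤ η) : C = 0 := by
  let R := StarAlgebra.adjoin ℂ S
  have hcomm : ∀ x ∈ R, ∀ y ∈ R, x * y = y * x :=
    fun x hx y hy => by
    have := StarAlgebra.isMulCommutative_adjoin ℂ hS fun a ha b hb => hS a ha _ (hstar b hb)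
    exact setLike_mul_comm hx hy
  letI : CommRing R := { (inferInstance : Ring R) with
    mul_comm := fun x y => Subtype.ext (hcomm x x.2 y y.2) }
  have sub : S ⊆ R := StarAlgebra.subset_adjoin ℂ S
  choose q hqS hq using fun k : ℕ => h (1 / (k + 1)) (by positivity)
  let V : ℕ → Matrix (Fin n × Fin 2) (Fin n) R := fun k =>
    Matrix.of fun c p => ⟨star (q k p c), sub (hstar _ (hqS k p c))⟩ * ⟨G, sub hG⟩
  let W : ℕ → Matrix (Fin n) (Fin n × Fin 2) R := fun k =>
    Matrix.of fun p c => ⟨q k p c, sub (hqS k p c)⟩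
  let C' : R := ⟨C, sub hC⟩
  have hlim : Tendsto (fun k => V k * W k) atTop (𝓝 (Matrix.diagonal fun _ => C')) := by
    refine tendsto_pi_nhds.2 fun c => tendsto_pi_nhds.2 fun c' => ?_
    rw [tendsto_iff_norm_sub_tendsto_zero]
    refine squeeze_zero (fun k => norm_nonneg _) (fun k => ?_)
      tendsto_one_div_add_atTop_nhds_zero_nat
    show ‖((V k * W k) c c' : B) - ((Matrix.diagonal fun _ => C') c c' : R)‖ ≤ _
    refine le_of_eq_of_le ?_ (hq k c c')
    congr 1
    simp only [Matrix.mul_apply, Matrix.diagonal_apply, V, W, Matrix.of_apply]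
    split_ifs <;> simp [C']
  have hd : (Matrix.diagonal fun _ : Fin n × Fin 2 => C').det = 0 := by
    refine tendsto_nhds_unique (((continuous_id.matrix_det).tendsto _).comp hlim) ?_
    simp [Function.comp_def, det_narrow hn]
  rw [Matrix.det_diagonal, Finset.prod_const] at hd
  have hd' := congrArg (Subtype.val : R → B) hd
  push_cast at hd'
  have hcard : (Finset.univ : Finset (Fin n × Fin 2)).card ≠ 0 := by simp; omega
  exact eq_zero_of_pow_eq_zero_sa hCs hd'

end Rank

section Main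

variable {A : Type u} [CStarAlgebra A]

/-- The real functional calculus on bounded sequences. -/
local instance seqCFC : ContinuousFunctionalCalculus ℝ (ℕ →ᵇ A) IsSelfAdjoint :=
  IsSelfAdjoint.instContinuousFunctionalCalculus (A := ℕ →ᵇ A)

/-- The real functional calculus on bounded sequences is isometric. -/
local instance seqICFC : IsometricContinuousFunctionalCalculus ℝ (ℕ →ᵇ A) IsSelfAdjoint :=
  IsSelfAdjoint.instIsometricContinuousFunctionalCalculus (A := ℕ →ᵇ A)

/-- The real functional calculus on quotients of bounded sequences. -/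
local instance seqQuotCFC (J : Ideal (ℕ →ᵇ A)) [J.IsTwoSided] [IsClosed (J : Set (ℕ →ᵇ A))] :
    ContinuousFunctionalCalculus ℝ ((ℕ →ᵇ A) ⧸ J) IsSelfAdjoint :=
  IsSelfAdjoint.instContinuousFunctionalCalculus (A := (ℕ →ᵇ A) ⧸ J)

/-- Evaluation of a bounded sequence. -/
def evalSeq (k : ℕ) : (ℕ →ᵇ A) →⋆ₐ[ℂ] A where
  toFun f := f k
  map_one' := rfl
  map_mul' _ _ := rfl
  map_zero' := rfl
  map_add' _ _ := rfl
  commutes' _ := rfl
  map_star' _ := rfl

@[simp] theorem evalSeq_apply (k : ℕ) (f : ℕ →ᵇ A) : evalSeq k f = f k := rfl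

theorem cfc_apply_seq {f : ℝ → ℝ} (hf : Continuous f) {H : ℕ →ᵇ A} (hH : IsSelfAdjoint H)
    (k : ℕ) : cfc f H k = cfc f (H k) :=
  StarAlgHomClass.map_cfc (evalSeq k) f H hf.continuousOn
    ((continuous_apply k).comp BoundedContinuousFunction.continuous_coe) hH (hH.map (evalSeq k))

variable [PartialOrder A] [StarOrderedRing A]

omit [StarOrderedRing A] in
theorem exists_ampPI_univ (h : IsWeaklyPurelyInfinite A) :
    ∃ n : ℕ, 1 ≤ n ∧ AmpPI (Set.univ : Set A) n := by
  obtain ⟨n, hn, hA⟩ := h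
  refine ⟨n, hn, fun g _ hg ε hε => ?_⟩
  obtain ⟨r, hr⟩ := hA g hg ε hε
  exact ⟨r, fun _ _ => trivial, fun c c' => (hr c c').le⟩

/-- Bounded rows carrying copies of a cut. -/
theorem exists_bounded_rows {n : ℕ} {A₀ : Set A} (hI : IsClosedIdeal A₀) (hP : AmpPI A₀ n) {G : A}
    (hGA : G ∈ A₀) (hG : 0 ≤ G)
    (hG1 : ‖G‖ ≤ 1) {c : ℝ} (hc : 0 < c) {η : ℝ} (hη : 0 < η) (hη1 : η ≤ 1) :
    ∃ q : Fin n → (Fin n × Fin 2) → A, (∀ p i, c * ‖q p i‖ ^ 2 ≤ 2) ∧
      ∀ i j, ‖(∑ p, star (q p i) * G * q p j) - (if i = j then cut c G else 0)‖ ≤ η := by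
  obtain ⟨r, -, hr⟩ := hP (cut c G) (cut_mem hI hc.le hG hGA) cut_nonneg η hη
  obtain ⟨k, hks, hkG, hkc⟩ := exists_cut_factor hc hG
  have e : ∀ p i j, star (k * r p i) * G * (k * r p j) = star (r p i) * cut c G * r p j := by
    intro p i j
    rw [star_mul, hks.star_eq, ← hkG]; noncomm_ring
  refine ⟨fun p i => k * r p i, fun p i => ?_, fun i j => by simpa only [e] using hr i j⟩
  have hcn : ‖cut c G‖ ≤ 1 := norm_cfc_le zero_le_one fun t ht => by
    rw [Real.norm_eq_abs, abs_of_nonneg (le_max_right _ _)]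
    have h0 := spectrum_nonneg_of_nonneg hG ht
    rcases subsingleton_or_nontrivial A with hA | hA
    · simp [spectrum.of_subsingleton] at ht
    have := (spectrum.norm_le_norm_of_mem ht).trans hG1
    rw [Real.norm_eq_abs, abs_of_nonneg h0] at this
    exact max_le (by linarith) zero_le_one
  have h1 : c • (star (k * r p i) * (k * r p i)) ≤ ∑ p', star (r p' i) * cut c G * r p' i := by
    refine le_trans ?_ (Finset.single_le_sum (f := fun p' => star (r p' i) * cut c G * r p' i)
      (fun p' _ => star_left_conjugate_nonneg cut_nonneg _) (Finset.mem_univ p))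
    refine le_of_eq_of_le ?_ (star_left_conjugate_le_conjugate hkc (r p i))
    rw [star_mul, hks.star_eq, mul_smul_comm, smul_mul_assoc]
    congr 1
    noncomm_ring
  have h2 := CStarAlgebra.norm_le_norm_of_nonneg_of_le
    (smul_nonneg hc.le (star_mul_self_nonneg _)) h1
  rw [norm_smul, CStarRing.norm_star_mul_self, Real.norm_eq_abs, abs_of_pos hc, ← sq] at h2
  refine h2.trans ?_
  have h3 := hr i i
  rw [if_pos rfl] at h3
  have := norm_le_norm_sub_add (∑ p', star (r p' i) * cut c G * r p' i) (cut c G)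
  linarith

/-- The left ideal of sums through square-zero elements of the corner `e`. -/
def squareIdeal (P : Type u) [CStarAlgebra P] (e : P) : Ideal P :=
  (Ideal.span {x : P | ∃ s v : P, s * s = 0 ∧ e * s = s ∧ s * e = s ∧ x = s * v}).closure

instance squareIdeal.isTwoSided (P : Type u) [CStarAlgebra P] (e : P) :
    (squareIdeal P e).IsTwoSided where
  mul_mem_of_left {x} c hx := by
    refine map_mem_closure (f := fun y : P => y * c) (by fun_prop) hx fun y hy => ?_
    change y * c ∈ Ideal.span _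
    induction hy using Submodule.span_induction with
    | mem y hy =>
      obtain ⟨s, v, h1, h2, h3, rfl⟩ := hy
      exact Submodule.subset_span ⟨s, v * c, h1, h2, h3, mul_assoc _ _ _⟩
    | zero => simp
    | add p q _ _ hp hq => rw [add_mul]; exact add_mem hp hq
    | smul r p _ hp => rw [smul_mul_assoc]; exact Submodule.smul_mem _ r hp

instance squareIdeal.isClosed (P : Type u) [CStarAlgebra P] (e : P) :
    IsClosed (squareIdeal P e : Set P) := isClosed_closure

theorem norm_sub_cut_le {H : ℕ →ᵇ A} (hH : IsSelfAdjoint H) {c : ℝ} (hc : 0 < c) :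
    ‖cfc (lev 4) H - cfc (fun t => max (lev 4 t - c) 0) H‖ ≤ c := by
  have hcut : Continuous fun t : ℝ => max (lev 4 t - c) 0 := by
    have := continuous_lev 4; fun_prop
  rw [BoundedContinuousFunction.norm_le hc.le]
  intro k
  show ‖cfc (lev 4) H k - cfc (fun t => max (lev 4 t - c) 0) H k‖ ≤ c
  rw [cfc_apply_seq (continuous_lev 4) hH k, cfc_apply_seq hcut hH k,
    ← cfc_sub _ _ (H k) (continuous_lev 4).continuousOn hcut.continuousOn]
  refine norm_cfc_le hc.le fun t _ => ?_
  have := lev_mem 4 t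
  rw [Real.norm_eq_abs, abs_le]
  rcases le_total (lev 4 t) c with h | h
  · rw [max_eq_right (by linarith)]; constructor <;> linarith
  · rw [max_eq_left (by linarith)]; constructor <;> linarith

/-- In the quotient by the square-zero elements of the corner `e` the corner is commutative. -/
theorem image_comm (e : ℕ →ᵇ A) (hes : star e = e) : ∀ x y : ℕ →ᵇ A,
    e * x = x → x * e = x → e * y = y → y * e = y →
      quotStar (squareIdeal (ℕ →ᵇ A) e) x * quotStar (squareIdeal (ℕ →ᵇ A) e) y =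
        quotStar (squareIdeal (ℕ →ᵇ A) e) y * quotStar (squareIdeal (ℕ →ᵇ A) e) x := by
  set J := squareIdeal (ℕ →ᵇ A) e
  set π := quotStar J with hπ
  letI : PartialOrder ((ℕ →ᵇ A) ⧸ J) := CStarAlgebra.spectralOrder _
  haveI : StarOrderedRing ((ℕ →ᵇ A) ⧸ J) := CStarAlgebra.spectralOrderedRing _
  have hkey : ∀ k a, IsSelfAdjoint k → e * k = k → k * e = k → e * a = a → a * e = a →
      π k * π a = π a * π k := by
    intro k a hk hek hke hea hae
    set r : ℝ := (‖k‖ + 1)⁻¹ with hr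
    have hr0 : 0 < r := by positivity
    have key : π (r • k) * π a = π a * π (r • k) := by
      have hrk : IsSelfAdjoint (r • k) := (IsSelfAdjoint.all r).smul hk
      refine mul_comm_of_disjoint (hrk.map π) ?_ fun f f' hf hf' hff => ?_
      · refine (Submodule.Quotient.norm_mk_le J (r • k)).trans ?_
        rw [norm_smul, Real.norm_eq_abs, abs_of_pos hr0, hr,
          inv_mul_le_iff₀ (by positivity)]
        linarith
      · have hc : Continuous π := AddMonoidHomClass.continuous_of_bound π 1 fun x =>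
          (Submodule.Quotient.norm_mk_le J x).trans_eq (one_mul _).symm
        erw [← StarAlgHomClass.map_cfc π f (r • k) hf.continuousOn hc hrk (hrk.map π),
          ← StarAlgHomClass.map_cfc π f' (r • k) hf'.continuousOn hc hrk (hrk.map π),
          ← map_mul, ← map_mul, hπ, quotStar_eq_zero]
        have hcom : Commute e (r • k) := (Commute.smul_right (hek.trans hke.symm) r)
        have hz : cfc f' (r • k) * cfc f (r • k) = 0 := by
          rw [← cfc_mul f' f _ hf'.continuousOn hf.continuousOn]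
          simp [mul_comm _ (f _), hff, cfc_const_zero]
        refine subset_closure (Submodule.subset_span
          ⟨cfc f (r • k) * a * cfc f' (r • k), 1, ?_, ?_, ?_, (mul_one _).symm⟩)
        · calc _ = cfc f (r • k) * a * (cfc f' (r • k) * cfc f (r • k)) * a * cfc f' (r • k) := by
                noncomm_ring
            _ = 0 := by rw [hz]; noncomm_ring
        · rw [← mul_assoc, ← mul_assoc, ((hcom.symm.cfc_real f).symm).eq, mul_assoc (cfc f _) e a,
            hea]
        · rw [mul_assoc, (hcom.symm.cfc_real f').eq, ← mul_assoc, mul_assoc (cfc f _) a e, hae]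
    have e1 : π (r • k) = (r : ℂ) • π k := by
      rw [← map_smul]
      exact congrArg π (BoundedContinuousFunction.ext fun i => by
        rw [BoundedContinuousFunction.coe_smul, BoundedContinuousFunction.coe_smul]
        exact RCLike.real_smul_eq_coe_smul r (k i))
    rw [e1, smul_mul_assoc, mul_smul_comm] at key
    exact smul_right_injective _ (by exact_mod_cast hr0.ne' : (r : ℂ) ≠ 0) key
  intro x y hx1 hx2 hy1 hy2
  have hx1' : star x * e = star x := by
    conv_rhs => rw [← hx1, star_mul, hes]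
  have hx2' : e * star x = star x := by
    conv_rhs => rw [← hx2, star_mul, hes]
  have hre := hkey (x + star x) y (IsSelfAdjoint.add_star_self x)
    (by rw [mul_add, hx1, hx2']) (by rw [add_mul, hx2, hx1']) hy1 hy2
  have him := hkey (Complex.I • (star x - x)) y
    (by
      rw [IsSelfAdjoint, star_smul, star_sub, star_star, Complex.star_def, Complex.conj_I,
        neg_smul, ← smul_neg, neg_sub])
    (by rw [mul_smul_comm, mul_sub, hx1, hx2']) (by rw [smul_mul_assoc, sub_mul, hx2, hx1'])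
    hy1 hy2
  simp only [map_add, map_smul, map_sub, add_mul, mul_add, sub_mul, mul_sub, smul_mul_assoc,
    mul_smul_comm] at hre him
  have him' := smul_right_injective _ Complex.I_ne_zero him
  have h2 : π x * π y + π x * π y = π y * π x + π y * π x := by
    linear_combination (norm := abel) hre - him'
  rw [← two_smul ℂ, ← two_smul ℂ] at h2
  exact smul_right_injective _ (two_ne_zero' ℂ) h2

/-- The cut lies in the ideal of its square-zero elements. -/
theorem lev_mem_squareIdeal {n : ℕ} (hn : 1 ≤ n) {A₀ : Set A} (hI : IsClosedIdeal A₀)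
    (hP : AmpPI A₀ n) (H : ℕ →ᵇ A) (hH : IsSelfAdjoint H) (hHA : ∀ k, H k ∈ A₀) :
    cfc (lev 4) H ∈ squareIdeal (ℕ →ᵇ A) (cfc (lev 2) H) := by
  set e := cfc (lev 2) H with he
  set e3 := cfc (lev 3) H with he3
  set G := cfc (lev 4) H with hG
  set J := squareIdeal (ℕ →ᵇ A) e
  set π := quotStar J with hπ
  have hes : star e = e := (cfc_predicate _ H : IsSelfAdjoint _).star_eq
  have he3s : star e3 = e3 := (cfc_predicate _ H : IsSelfAdjoint _).star_eq
  have hlev : ∀ {i j : ℕ}, i < j → cfc (lev i) H * cfc (lev j) H = cfc (lev j) H ∧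
      cfc (lev j) H * cfc (lev i) H = cfc (lev j) H := by
    intro i j hij
    have h1 : cfc (lev i) H * cfc (lev j) H = cfc (lev j) H := by
      rw [← cfc_mul _ _ H (continuous_lev i).continuousOn (continuous_lev j).continuousOn]
      exact cfc_congr fun t _ => lev_mul_lev hij t
    refine ⟨h1, ?_⟩
    have := congrArg star h1
    rwa [star_mul, (cfc_predicate _ H : IsSelfAdjoint _).star_eq, (cfc_predicate _ H : IsSelfAdjoint _).star_eq] at this
  set S : Set ((ℕ →ᵇ A) ⧸ J) := {y | ∃ x, e * x = x ∧ x * e = x ∧ π x = y}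
  have hscomm : ∀ x ∈ S, ∀ y ∈ S, x * y = y * x := by
    rintro _ ⟨x, hx1, hx2, rfl⟩ _ ⟨y, hy1, hy2, rfl⟩
    exact image_comm e hes x y hx1 hx2 hy1 hy2
  have hSstar : ∀ x ∈ S, star x ∈ S := by
    rintro _ ⟨x, hx1, hx2, rfl⟩
    refine ⟨star x, ?_, ?_, map_star π x⟩
    · conv_rhs => rw [← hx2, star_mul, hes]
    · conv_rhs => rw [← hx1, star_mul, hes]
  have hGk : ∀ k, G k = cfc (lev 4) (H k) := fun k => cfc_apply_seq (continuous_lev 4) hH k
  have hcut : ∀ c : ℝ, Continuous fun t : ℝ => max (lev 4 t - c) 0 := fun c => by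
    have := continuous_lev 4; fun_prop
  have hzero : ∀ c : ℝ, 0 < c → π (cfc (fun t => max (lev 4 t - c) 0) H) = 0 := by
    intro c hc
    set C := cfc (fun t => max (lev 4 t - c) 0) H with hCdef
    have hC3 : e3 * C = C ∧ C * e3 = C := by
      have h1 : e3 * C = C := by
        rw [he3, hCdef, ← cfc_mul _ _ H (continuous_lev 3).continuousOn (hcut c).continuousOn]
        refine cfc_congr fun t _ => ?_
        rcases le_total t (2 ^ 4 / 128) with ht | ht
        · rw [lev_eq_zero ht, max_eq_right (by linarith), mul_zero]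
        · rw [lev_eq_one ht, one_mul]
      refine ⟨h1, ?_⟩
      have := congrArg star h1
      rwa [star_mul, he3s, (cfc_predicate _ H : IsSelfAdjoint _).star_eq] at this
    have h23 := hlev (show 2 < 3 by norm_num)
    have h24 := hlev (show 2 < 4 by norm_num)
    have h34 := hlev (show 3 < 4 by norm_num)
    have hfix : ∀ x, e * (e3 * x * e3) = e3 * x * e3 ∧ e3 * x * e3 * e = e3 * x * e3 := fun x =>
      ⟨by rw [← mul_assoc, ← mul_assoc, h23.1], by rw [mul_assoc, h23.2]⟩
    refine eq_zero_of_copies hn S hscomm hSstar (G := π G) ⟨G, h24.1, h24.2, rfl⟩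
      ⟨C, ?_, ?_, rfl⟩ ((cfc_predicate _ H : IsSelfAdjoint _).map π) fun η hη => ?_
    · conv_lhs => rw [← hC3.1, ← mul_assoc, h23.1]
      exact hC3.1
    · conv_lhs => rw [← hC3.2, mul_assoc, h23.2]
      exact hC3.2
    set η' := min η 1
    choose q hqn hq using fun k => exists_bounded_rows hI hP
      (G := cfc (lev 4) (H k)) (cfc_mem_of_zero hI (hH.map (evalSeq k)) (hHA k) (continuous_lev 4)
        (lev_eq_zero (by positivity))) (cfc_nonneg fun t _ => (lev_mem 4 t).1)
      (norm_cfc_le zero_le_one fun t _ => by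
        rw [Real.norm_eq_abs, abs_of_nonneg (lev_mem 4 t).1]; exact (lev_mem 4 t).2)
      hc (show 0 < η' from lt_min hη one_pos) (min_le_right _ _)
    let Q : Fin n → Fin n × Fin 2 → (ℕ →ᵇ A) := fun p i =>
      .ofNormedAddCommGroup (fun k => q k p i) continuous_of_discreteTopology (Real.sqrt (2 / c))
        fun k => Real.le_sqrt_of_sq_le (by rw [le_div_iff₀ hc, mul_comm]; exact hqn k p i)
    have hQ : ∀ i j, ‖(∑ p, star (Q p i) * G * Q p j) - (if i = j then C else 0)‖ ≤ η := by
      intro i j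
      rw [BoundedContinuousFunction.norm_le hη.le]
      intro k
      have hCk : C k = cut c (cfc (lev 4) (H k)) := by
        rw [hCdef, cfc_apply_seq (hcut c) hH k, cut,
          ← cfc_comp' (fun t : ℝ => max (t - c) 0) (lev 4) (H k) (by fun_prop)
            (continuous_lev 4).continuousOn (hH.map (evalSeq k))]
      refine (le_of_eq_of_le ?_ (hq k i j)).trans (min_le_left _ _)
      show ‖evalSeq k ((∑ p, star (Q p i) * G * Q p j) - (if i = j then C else 0))‖ = _
      split_ifs <;> simp [map_sum, Q, hGk, hCk]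
    refine ⟨fun p i => π (e3 * Q p i * e3), fun p i => ⟨_, (hfix _).1, (hfix _).2, rfl⟩,
      fun i j => ?_⟩
    have he3G : e3 * G * e3 = G := by rw [h34.1, h34.2]
    have e1 : (∑ p, star (π (e3 * Q p i * e3)) * π G * π (e3 * Q p j * e3)) -
        (if i = j then π C else 0) =
        π (e3 * ((∑ p, star (Q p i) * G * Q p j) - (if i = j then C else 0)) * e3) := by
      have e2 : ∀ p, star (e3 * Q p i * e3) * G * (e3 * Q p j * e3) =
          e3 * (star (Q p i) * G * Q p j) * e3 := fun p => by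
        rw [star_mul, star_mul, he3s]
        calc e3 * (star (Q p i) * e3) * G * (e3 * Q p j * e3)
            = e3 * (star (Q p i) * (e3 * G * e3) * Q p j) * e3 := by noncomm_ring
          _ = _ := by rw [he3G]
      rw [mul_sub, sub_mul, map_sub, Finset.mul_sum, Finset.sum_mul, map_sum]
      congr 1
      · exact Finset.sum_congr rfl fun p _ => by
          rw [← e2]; simp only [map_mul, map_star, star_mul, mul_assoc]
      · split_ifs
        · rw [hC3.1, hC3.2]
        · simp
    rw [e1]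
    refine (Submodule.Quotient.norm_mk_le J _).trans ?_
    have hn3 : ‖e3‖ ≤ 1 := norm_cfc_le zero_le_one fun t _ => by
      rw [Real.norm_eq_abs, abs_of_nonneg (lev_mem 3 t).1]; exact (lev_mem 3 t).2
    refine norm_mul₃_le.trans ?_
    calc ‖e3‖ * ‖(∑ p, star (Q p i) * G * Q p j) - (if i = j then C else 0)‖ * ‖e3‖
        ≤ 1 * η * 1 := by gcongr; exact hQ i j
      _ = η := by ring
  rw [← quotStar_eq_zero J, ← norm_le_zero_iff, ← hπ]
  refine le_of_forall_pos_le_add fun c hc => ?_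
  rw [zero_add]
  calc ‖π G‖ = ‖π (G - cfc (fun t => max (lev 4 t - c) 0) H)‖ := by
        rw [map_sub, hzero c hc, sub_zero]
    _ ≤ ‖G - cfc (fun t => max (lev 4 t - c) 0) H‖ := Submodule.Quotient.norm_mk_le J _
    _ ≤ c := norm_sub_cut_le hH hc

/-- **Halving**, uniform over self-adjoint contractions in the ideal. -/
theorem halving_ideal {n : ℕ} (hn : 1 ≤ n) {A₀ : Set A} (hI : IsClosedIdeal A₀) (hP : AmpPI A₀ n)
    {ε : ℝ} (hε : 0 < ε) :
    ∃ N : ℕ, ∀ h : A, h ∈ A₀ → IsSelfAdjoint h → ‖h‖ ≤ 1 → ∃ a s b : Fin N → A, (∀ j,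
      s j * s j = 0 ∧ (‖a j‖ ≤ N ∧ ‖s j‖ ≤ N ∧ ‖b j‖ ≤ N) ∧
      (cfc (lev 0) h * a j = a j ∧ a j * cfc (lev 0) h = a j) ∧
      (cfc (lev 0) h * s j = s j ∧ s j * cfc (lev 0) h = s j) ∧
      (cfc (lev 0) h * b j = b j ∧ b j * cfc (lev 0) h = b j)) ∧
      ‖cfc (lev 4) h * cfc (lev 4) h * cfc (lev 4) h - ∑ i, a i * s i * b i‖ ≤ ε := by
  by_contra hne
  simp only [not_exists, not_forall] at hne
  choose h hmem hsa h1 hbad using hne
  let H : ℕ →ᵇ A := .ofNormedAddCommGroup h continuous_of_discreteTopology 1 h1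
  have hH : IsSelfAdjoint H := BoundedContinuousFunction.ext fun k => (hsa k).star_eq
  obtain ⟨Y, hY, hGY⟩ := Metric.mem_closure_iff.1 (lev_mem_squareIdeal hn hI hP H hH hmem) ε hε
  rw [SetLike.mem_coe, Ideal.span, Submodule.mem_span_set'] at hY
  obtain ⟨m, u, x, rfl⟩ := hY
  choose s v hss hes hse hx using fun i : Fin m => (x i).2
  rw [dist_eq_norm] at hGY
  set E : ℕ → ℕ →ᵇ A := fun i => cfc (lev i) H
  have hEE : ∀ {i j : ℕ}, i < j → E i * E j = E j ∧ E j * E i = E j := by
    intro i j hij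
    have h1 : E i * E j = E j := by
      rw [← cfc_mul _ _ H (continuous_lev i).continuousOn (continuous_lev j).continuousOn]
      exact cfc_congr fun t _ => lev_mul_lev hij t
    refine ⟨h1, ?_⟩
    have := congrArg star h1
    rwa [star_mul, (cfc_predicate _ H : IsSelfAdjoint _).star_eq, (cfc_predicate _ H : IsSelfAdjoint _).star_eq] at this
  have h14 := hEE (show 1 < 4 by norm_num)
  have h12 := hEE (show 1 < 2 by norm_num)
  have h04 := hEE (show 0 < 4 by norm_num)
  have h01 := hEE (show 0 < 1 by norm_num)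
  have hfix : ∀ i, (E 0 * s i = s i ∧ s i * E 0 = s i) ∧ (E 1 * s i = s i ∧ s i * E 1 = s i) := by
    intro i
    have h02 := hEE (show 0 < 2 by norm_num)
    refine ⟨⟨?_, ?_⟩, ?_, ?_⟩
    · rw [← hes i, ← mul_assoc, h02.1]
    · rw [← hse i, mul_assoc, h02.2]
    · rw [← hes i, ← mul_assoc, h12.1]
    · rw [← hse i, mul_assoc, h12.2]
  set aS : Fin m → ℕ →ᵇ A := fun i => E 4 * u i * E 1
  set bS : Fin m → ℕ →ᵇ A := fun i => E 1 * v i * E 4
  have hsum : ∀ i, aS i * s i * bS i = E 4 * (u i • (x i : ℕ →ᵇ A)) * E 4 := fun i => by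
    rw [smul_eq_mul, hx i]
    calc aS i * s i * bS i = E 4 * u i * (E 1 * s i * E 1) * v i * E 4 := by
          simp only [aS, bS]; noncomm_ring
      _ = _ := by rw [(hfix i).2.1, (hfix i).2.2]; noncomm_ring
  obtain ⟨N, hNm, hNa⟩ : ∃ N : ℕ, m ≤ N ∧
      ∀ i, ‖aS i‖ ≤ N ∧ ‖s i‖ ≤ N ∧ ‖bS i‖ ≤ N := by
    obtain ⟨N, hN⟩ := exists_nat_ge ((m : ℝ) + ∑ i, (‖aS i‖ + ‖s i‖ + ‖bS i‖))
    refine ⟨N, ?_, fun i => ?_⟩
    · have : (0 : ℝ) ≤ ∑ i, (‖aS i‖ + ‖s i‖ + ‖bS i‖) := Finset.sum_nonneg fun i _ => by positivity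
      exact_mod_cast (show (m : ℝ) ≤ N by linarith)
    · have h2 := Finset.single_le_sum (f := fun i => ‖aS i‖ + ‖s i‖ + ‖bS i‖)
        (fun i _ => by positivity) (Finset.mem_univ i)
      have := norm_nonneg (aS i); have := norm_nonneg (s i); have := norm_nonneg (bS i)
      have : (0 : ℝ) ≤ m := by positivity
      refine ⟨?_, ?_, ?_⟩ <;> linarith
  let ext : (Fin m → ℕ →ᵇ A) → Fin N → A := fun F j =>
    if hj : (j : ℕ) < m then F ⟨j, hj⟩ N else 0
  refine hbad N (ext aS) (ext s) (ext bS) ?_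
  have e0 : ∀ i, cfc (lev i) (h N) = E i N := fun i =>
    (cfc_apply_seq (continuous_lev i) hH N).symm
  have coord : ∀ {F : ℕ →ᵇ A} {e : ℕ →ᵇ A}, e * F = F → e N * F N = F N := fun {F e} he =>
    congrArg (fun z : ℕ →ᵇ A => z N) he
  have coord' : ∀ {F : ℕ →ᵇ A} {e : ℕ →ᵇ A}, F * e = F → F N * e N = F N := fun {F e} he =>
    congrArg (fun z : ℕ →ᵇ A => z N) he
  refine ⟨fun j => ⟨?_, ⟨?_, ?_, ?_⟩, ⟨?_, ?_⟩, ⟨?_, ?_⟩, ⟨?_, ?_⟩⟩, ?_⟩
  rotate_right
  · have esum : ∑ i, ext aS i * ext s i * ext bS i = (∑ i, aS i * s i * bS i) N := by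
      rw [show (∑ i, aS i * s i * bS i) N = evalSeq N (∑ i, aS i * s i * bS i) from rfl, map_sum]
      refine (Fintype.sum_of_injective (Fin.castLE hNm) (Fin.castLE_injective hNm) _ _
        (fun j hj => ?_) fun i => ?_).symm
      · have : ¬(j : ℕ) < m := fun hlt => hj ⟨⟨j, hlt⟩, Fin.ext rfl⟩
        simp [ext, this]
      · simp [ext]
    rw [esum, e0]
    refine le_trans ((E 4 * E 4 * E 4 - ∑ i, aS i * s i * bS i).norm_coe_le_norm N) ?_
    have hn4 : ‖E 4‖ ≤ 1 := norm_cfc_le zero_le_one fun t _ => by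
      rw [Real.norm_eq_abs, abs_of_nonneg (lev_mem 4 t).1]; exact (lev_mem 4 t).2
    rw [Finset.sum_congr rfl fun i _ => hsum i, ← Finset.sum_mul, ← Finset.mul_sum, ← sub_mul,
      ← mul_sub]
    refine norm_mul₃_le.trans ?_
    calc ‖E 4‖ * ‖E 4 - ∑ i, u i • (x i : ℕ →ᵇ A)‖ * ‖E 4‖ ≤ 1 * ε * 1 := by
          gcongr
      _ = ε := by ring
  all_goals simp only [ext, e0]; split_ifs with hjm <;> try simp
  · exact congrArg (fun z : ℕ →ᵇ A => z N) (hss _)
  · exact ((aS _).norm_coe_le_norm N).trans (hNa _).1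
  · exact ((s _).norm_coe_le_norm N).trans (hNa _).2.1
  · exact ((bS _).norm_coe_le_norm N).trans (hNa _).2.2
  · exact coord (by simp only [aS, ← mul_assoc, h04.1])
  · exact coord' (by simp only [aS, mul_assoc, h01.2])
  · exact coord (hfix _).1.1
  · exact coord' (hfix _).1.2
  · exact coord (by simp only [bS, ← mul_assoc, h01.1])
  · exact coord' (by simp only [bS, mul_assoc, h04.2])

/-- **Halving**, uniform over self-adjoint contractions. -/
theorem halving {n : ℕ} (hn : 1 ≤ n) (hP : AmpPI (Set.univ : Set A) n) {ε : ℝ} (hε : 0 < ε) :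
    ∃ N : ℕ, ∀ h : A, IsSelfAdjoint h → ‖h‖ ≤ 1 → ∃ a s b : Fin N → A, (∀ j,
      s j * s j = 0 ∧ (‖a j‖ ≤ N ∧ ‖s j‖ ≤ N ∧ ‖b j‖ ≤ N) ∧
      (cfc (lev 0) h * a j = a j ∧ a j * cfc (lev 0) h = a j) ∧
      (cfc (lev 0) h * s j = s j ∧ s j * cfc (lev 0) h = s j) ∧
      (cfc (lev 0) h * b j = b j ∧ b j * cfc (lev 0) h = b j)) ∧
      ‖cfc (lev 4) h * cfc (lev 4) h * cfc (lev 4) h - ∑ i, a i * s i * b i‖ ≤ ε := by
  obtain ⟨N, hN⟩ := halving_ideal hn (A₀ := Set.univ) ⟨trivial, fun _ _ _ _ => trivial,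
    fun _ _ _ => trivial, fun _ _ _ => trivial, fun _ _ _ => trivial, isClosed_univ⟩ hP hε
  exact ⟨N, fun h hs h1 => hN h trivial hs h1⟩

end Main

end Vale.Agent.P133.NucDim
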