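import Vale.Agent.P133.NucDim.CentralDefs
import Vale.Agent.P133.NucDim.Halving

/-!
P133, finite nuclear dimension: square-zero elements almost commuting with one order zero block.

The first corner is cut by narrow tents in two parities.  Halving at each tent gives elements
living in that tent, so sums over one parity are orthogonal and almost commute with the corner;
the transport to the relative commutant keeps the products.
-/

noncomputable section

namespace Vale.Agent.P133.NucDim

open Vale.Agent.P133.FinDim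

universe u

variable {A : Type u} [CStarAlgebra A] [PartialOrder A] [StarOrderedRing A]

/-- `x` lives in the corner of `l`. -/
def InCorner (l x : A) : Prop := l * x = x ∧ x * l = x

omit [PartialOrder A] [StarOrderedRing A] in
theorem InCorner.mul {l x y : A} (hx : InCorner l x) (hy : InCorner l y) : InCorner l (x * y) :=
  ⟨by rw [← mul_assoc, hx.1], by rw [mul_assoc, hy.2]⟩

omit [PartialOrder A] [StarOrderedRing A] in
theorem InCorner.sub {l x y : A} (hx : InCorner l x) (hy : InCorner l y) : InCorner l (x - y) :=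
  ⟨by rw [mul_sub, hx.1, hy.1], by rw [sub_mul, hx.2, hy.2]⟩

omit [PartialOrder A] [StarOrderedRing A] in
theorem InCorner.sum {ι : Type*} {l : A} (s : Finset ι) {x : ι → A}
    (hx : ∀ i ∈ s, InCorner l (x i)) : InCorner l (∑ i ∈ s, x i) :=
  ⟨by rw [Finset.mul_sum]; exact Finset.sum_congr rfl fun i hi => (hx i hi).1,
    by rw [Finset.sum_mul]; exact Finset.sum_congr rfl fun i hi => (hx i hi).2⟩

omit [PartialOrder A] [StarOrderedRing A] in
theorem InCorner.star {l x : A} (hl : star l = l) (hx : InCorner l x) : InCorner l (star x) :=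
  ⟨by conv_rhs => rw [← hx.2, star_mul, hl],
    by conv_rhs => rw [← hx.1, star_mul, hl]⟩

omit [PartialOrder A] [StarOrderedRing A] in
theorem InCorner.mono {l m x : A} (h1 : m * l = l) (h2 : l * m = l) (hx : InCorner l x) :
    InCorner m x :=
  ⟨by rw [← hx.1, ← mul_assoc, h1], by rw [← hx.2, mul_assoc, h2]⟩

omit [PartialOrder A] [StarOrderedRing A] in
theorem mul_eq_zero_of_corners {l l' x y : A} (h : l * l' = 0) (hx : InCorner l x)
    (hy : InCorner l' y) : x * y = 0 := by
  rw [← hx.2, ← hy.1, mul_assoc, ← mul_assoc l, h, zero_mul, mul_zero]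

section Family

variable {ι : Type*} {s : Finset ι} {l : ι → A}
  (hl : ∀ i ∈ s, ∀ j ∈ s, i ≠ j → l i * l j = 0)
include hl

omit [PartialOrder A] [StarOrderedRing A] in
theorem sum_mul_sum_of_corners {x y : ι → A} (hx : ∀ i ∈ s, InCorner (l i) (x i))
    (hy : ∀ i ∈ s, InCorner (l i) (y i)) :
    (∑ i ∈ s, x i) * ∑ i ∈ s, y i = ∑ i ∈ s, x i * y i := by
  rw [Finset.sum_mul_sum]
  exact Finset.sum_congr rfl fun i hi => Finset.sum_eq_single_of_mem i hi fun j hj hji =>
    mul_eq_zero_of_corners (hl i hi j hj hji.symm) (hx i hi) (hy j hj)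

theorem norm_sum_of_corners (hls : ∀ i, star (l i) = l i) {x : ι → A}
    (hx : ∀ i ∈ s, InCorner (l i) (x i)) {C : ℝ} (hC : 0 ≤ C) (hn : ∀ i ∈ s, ‖x i‖ ≤ C) :
    ‖∑ i ∈ s, x i‖ ≤ C :=
  norm_sum_orth_le s x
    (fun i hi j hj hij => mul_eq_zero_of_corners (hl i hi j hj hij) ((hx i hi).star (hls i))
      (hx j hj))
    (fun i hi j hj hij => mul_eq_zero_of_corners (hl i hi j hj hij) (hx i hi)
      ((hx j hj).star (hls j)))
    hC hn

end Family

/-- The tent of width `W` around `c`. -/
def tent (W c t : ℝ) : ℝ := max 0 (1 - |t - c| / W)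

theorem continuous_tent (W c : ℝ) : Continuous (tent W c) := by
  unfold tent; fun_prop

theorem tent_mem {W : ℝ} (hW : 0 < W) (c t : ℝ) : 0 ≤ tent W c t ∧ tent W c t ≤ 1 :=
  ⟨le_max_left _ _, max_le zero_le_one (sub_le_self 1 (div_nonneg (abs_nonneg _) hW.le))⟩

theorem lev_tent_eq_zero {W : ℝ} (hW : 0 < W) {c t : ℝ} (h : W ≤ |t - c|) (i : ℕ) :
    lev i (tent W c t) = 0 := by
  refine lev_eq_zero ?_
  have h1 : tent W c t = 0 := max_eq_left (sub_nonpos.2 ((one_le_div hW).2 h))
  rw [h1]
  positivity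

theorem lev_four_tent_eq_one {W : ℝ} (hW : 0 < W) {c t : ℝ} (h : |t - c| ≤ W / 2) :
    lev 4 (tent W c t) = 1 := by
  refine lev_eq_one (le_trans ?_ (le_max_right _ _))
  have : |t - c| / W ≤ 1 / 2 := by rw [div_le_iff₀ hW]; linarith
  norm_num
  linarith

/-- The ramp from `2 κ` to `3 κ`. -/
def ramp (κ t : ℝ) : ℝ := max 0 (min 1 ((t - 2 * κ) / κ))

theorem continuous_ramp (κ : ℝ) : Continuous (ramp κ) := by
  unfold ramp; fun_prop

theorem ramp_mem (κ t : ℝ) : 0 ≤ ramp κ t ∧ ramp κ t ≤ 1 :=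
  ⟨le_max_left _ _, max_le zero_le_one (min_le_left _ _)⟩

theorem ramp_eq_zero {κ t : ℝ} (hκ : 0 < κ) (h : t ≤ 2 * κ) : ramp κ t = 0 :=
  max_eq_left ((min_le_right _ _).trans (div_nonpos_of_nonpos_of_nonneg (by linarith) hκ.le))

theorem ramp_eq_one {κ t : ℝ} (hκ : 0 < κ) (h : 3 * κ ≤ t) : ramp κ t = 1 := by
  rw [ramp, min_eq_left ((one_le_div hκ).2 (by linarith)), max_eq_right zero_le_one]

section Corner

variable {n : ℕ} (U : Units n A) (o : Fin n) {κ : ℝ}

omit [StarOrderedRing A] in
theorem isSelfAdjoint_E : IsSelfAdjoint (U.E o o) := U.star_E o o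

theorem spec_E {t : ℝ} (ht : t ∈ spectrum ℝ (U.E o o)) : 0 ≤ t ∧ t ≤ 1 :=
  ⟨spectrum_nonneg_of_nonneg (U.nonneg o) ht,
    (le_algebraMap_iff_spectrum_le (isSelfAdjoint_E U o)).1
      ((U.E_le_one o).trans_eq (map_one _).symm) t ht⟩

/-- The function `t γ(t)` of the corner. -/
def cutOne (κ : ℝ) : A := U.E o o * U.g o κ

omit [StarOrderedRing A] in
theorem cutOne_eq (hκ : 0 < κ) : cutOne U o κ = cfc (fun t => t * gam κ t) (U.E o o) := by
  rw [cfc_mul (fun t : ℝ => t) (gam κ) (U.E o o) continuousOn_id (continuous_gam hκ).continuousOn,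
    cfc_id' ℝ (U.E o o) (isSelfAdjoint_E U o)]
  rfl

theorem inCorner_cfc (hκ : 0 < κ) {f : ℝ → ℝ} (hf : Continuous f)
    (h0 : ∀ t ∈ spectrum ℝ (U.E o o), f t ≠ 0 → κ ≤ t) :
    InCorner (cutOne U o κ) (cfc f (U.E o o)) := by
  have hc : Continuous fun t => t * gam κ t := continuous_id.mul (continuous_gam hκ)
  have key : ∀ t ∈ spectrum ℝ (U.E o o), t * gam κ t * f t = f t := by
    intro t ht
    by_cases hft : f t = 0
    · rw [hft, mul_zero]
    · have := h0 t ht hft
      rw [gam, max_eq_left this, mul_inv_cancel₀ (by linarith), one_mul]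
  rw [cutOne_eq U o hκ]
  constructor
  · rw [← cfc_mul _ _ _ hc.continuousOn hf.continuousOn]
    exact cfc_congr key
  · rw [← cfc_mul _ _ _ hf.continuousOn hc.continuousOn]
    exact cfc_congr fun t ht => by rw [mul_comm]; exact key t ht

theorem theta_mul_of_corner (a : A) {b : A} (hb : InCorner (cutOne U o κ) b) :
    U.theta o κ a * U.theta o κ b = U.theta o κ (a * b) := by
  refine U.theta_mul o a b ?_
  rw [mul_assoc]
  exact (congrArg (cutOne U o κ * ·) hb.1).trans hb.1

theorem theta_eq_H_mul {X : A} (hX : InCorner (cutOne U o κ) X) :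
    U.theta o κ X = U.H * ∑ i, U.E i o * U.g o κ * U.g o κ * X * star (U.v o κ i) := by
  rw [Units.theta, Finset.mul_sum]
  refine Finset.sum_congr rfl fun i _ => ?_
  calc U.v o κ i * X * star (U.v o κ i)
      = U.E i o * U.g o κ * (U.E o o * U.g o κ * X) * star (U.v o κ i) := by
        rw [show U.E o o * U.g o κ * X = X from hX.1]; rfl
    _ = U.E i o * (U.g o κ * U.E o o) * U.g o κ * X * star (U.v o κ i) := by
        simp only [mul_assoc]
    _ = U.E i o * U.E o o * (U.g o κ * U.g o κ * X * star (U.v o κ i)) := by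
        rw [(U.commute_g o).eq]; simp only [mul_assoc]
    _ = _ := by
        rw [U.step i o o, ← U.H_mul_E i o]; simp only [mul_assoc]

/-- The transport of a corner element almost commuting with the corner is good. -/
theorem good_theta (hκ : 0 < κ) {X : A} (hX : InCorner (cutOne U o κ) X) {δ δ' K : ℝ}
    (hcom : ‖X * U.E o o - U.E o o * X‖ ≤ δ') (hδ : κ⁻¹ * κ⁻¹ * δ' ≤ δ) (hK : ‖X‖ ≤ K) :
    U.Good δ K (U.theta o κ X) := by
  refine ⟨fun w h0 h1 => ?_, ⟨_, theta_eq_H_mul U o hX⟩, ?_, (U.norm_theta_le o hκ X).trans hK⟩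
  · refine (U.norm_theta_comm_le o hκ X rfl h0 h1).trans (le_trans ?_ hδ)
    exact mul_le_mul_of_nonneg_left hcom (by positivity)
  · have hs : star (cutOne U o κ) = cutOne U o κ := by
      rw [cutOne_eq U o hκ]
      exact (cfc_predicate (fun t => t * gam κ t) (U.E o o)).star_eq
    obtain ⟨y, hy⟩ : ∃ y, U.theta o κ (star X) = U.H * y := ⟨_, theta_eq_H_mul U o (hX.star hs)⟩
    refine ⟨star y, ?_⟩
    rw [← star_star (U.theta o κ X), U.theta_star, hy, star_mul,
      (IsSelfAdjoint.of_nonneg U.H_nonneg).star_eq]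

theorem theta_cfc_sq (hκ : 0 < κ) :
    ‖U.theta o κ (cfc (fun t => t ^ 2 * ramp κ t) (U.E o o)) - U.H * U.H‖ ≤ 9 * κ ^ 2 := by
  set h := U.E o o with hh
  have hsa : IsSelfAdjoint h := isSelfAdjoint_E U o
  have hg := continuous_gam hκ
  have hr := continuous_ramp κ
  have e1 : ∀ i, U.v o κ i * cfc (fun t => t ^ 2 * ramp κ t) h * star (U.v o κ i) =
      U.E i o * cfc (ramp κ) h * U.E o i := by
    intro i
    rw [Units.v, star_mul, U.star_E, U.star_g]
    calc U.E i o * U.g o κ * cfc (fun t => t ^ 2 * ramp κ t) h * (U.g o κ * U.E o i)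
        = U.E i o * (U.g o κ * cfc (fun t => t ^ 2 * ramp κ t) h * U.g o κ) * U.E o i := by
          simp only [mul_assoc]
      _ = _ := by
          congr 2
          rw [Units.g, ← hh, ← cfc_mul (gam κ) _ h hg.continuousOn (by fun_prop),
            ← cfc_mul (fun t => gam κ t * (t ^ 2 * ramp κ t)) (gam κ) h (by fun_prop)
              hg.continuousOn]
          refine cfc_congr fun t _ => ?_
          rcases le_total t (2 * κ) with ht | ht
          · simp [ramp_eq_zero hκ ht]
          · have : t ≠ 0 := by linarith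
            rw [gam, max_eq_left (show κ ≤ t by linarith)]
            field_simp
  have e2 : U.H * U.H = ∑ i, U.E i o * U.E o i := by
    rw [← U.H_sq]
    exact Finset.sum_congr rfl fun i _ => (U.step i o i).symm
  set q := cfc (fun t => 1 - ramp κ t) h with hq
  have e3 : U.theta o κ (cfc (fun t => t ^ 2 * ramp κ t) h) - U.H * U.H =
      -∑ i, U.E i o * q * U.E o i := by
    rw [Units.theta, Finset.sum_congr rfl fun i _ => e1 i, e2, ← Finset.sum_sub_distrib,
      ← Finset.sum_neg_distrib]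
    refine Finset.sum_congr rfl fun i _ => ?_
    rw [show q = 1 - cfc (ramp κ) h by
      rw [hq, cfc_sub (fun _ : ℝ => 1) (ramp κ) h continuousOn_const hr.continuousOn,
        cfc_const_one ℝ h hsa]]
    noncomm_ring
  rw [e3, norm_neg]
  have hz : ∀ i j, i ≠ j → ∀ M M' : A,
      U.E i o * M * U.E o i * (U.E j o * M' * U.E o j) = 0 := fun i j hij M M' => by
    calc U.E i o * M * U.E o i * (U.E j o * M' * U.E o j)
        = U.E i o * M * (U.E o i * U.E j o) * M' * U.E o j := by simp only [mul_assoc]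
      _ = 0 := by rw [U.zero o i j o hij, mul_zero, zero_mul, zero_mul]
  have hstar : ∀ i, star (U.E i o * q * U.E o i) = U.E i o * q * U.E o i := fun i => by
    have hqs : star q = q := (cfc_predicate (fun t => 1 - ramp κ t) h).star_eq
    rw [star_mul, star_mul, U.star_E, U.star_E, hqs]
    simp only [mul_assoc]
  refine norm_sum_orth_le Finset.univ _ (fun i _ j _ hij => by rw [hstar]; exact hz i j hij q q)
    (fun i _ j _ hij => by rw [hstar]; exact hz i j hij q q) (by positivity) fun i _ => ?_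
  set r := cfc (fun t => Real.sqrt (1 - ramp κ t)) h with hrdef
  have hrs : star r = r := (cfc_predicate _ h : IsSelfAdjoint r).star_eq
  have hrr : r * r = q := by
    rw [hrdef, hq, ← cfc_mul _ _ h (by fun_prop) (by fun_prop)]
    exact cfc_congr fun t _ => Real.mul_self_sqrt (by linarith [(ramp_mem κ t).2])
  have e4 : U.E i o * q * U.E o i = U.E i o * r * star (U.E i o * r) := by
    rw [star_mul, U.star_E, hrs, ← hrr]; simp only [mul_assoc]
  have e5 : star (U.E i o * r) * (U.E i o * r) =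
      cfc (fun t => Real.sqrt (1 - ramp κ t) * (t * t) * Real.sqrt (1 - ramp κ t)) h := by
    calc star (U.E i o * r) * (U.E i o * r) = r * (U.E o i * U.E i o) * r := by
          rw [star_mul, U.star_E, hrs]; simp only [mul_assoc]
      _ = r * (h * h) * r := by rw [U.step o i o]
      _ = _ := by
          rw [cfc_mul (fun t => Real.sqrt (1 - ramp κ t) * (t * t)) _ h (by fun_prop) (by fun_prop),
            cfc_mul (fun t => Real.sqrt (1 - ramp κ t)) (fun t => t * t) h (by fun_prop)
              (by fun_prop),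
            cfc_mul (fun t : ℝ => t) (fun t : ℝ => t) h (by fun_prop) (by fun_prop),
            cfc_id' ℝ h hsa]
  rw [e4, CStarRing.norm_self_mul_star, ← CStarRing.norm_star_mul_self, e5]
  refine norm_cfc_le (by positivity) fun t ht => ?_
  have ht0 := (spec_E U o ht).1
  have hr1 := ramp_mem κ t
  rw [mul_comm (Real.sqrt _) (t * t), mul_assoc, Real.mul_self_sqrt (by linarith),
    Real.norm_eq_abs, abs_of_nonneg (by nlinarith)]
  rcases le_total t (3 * κ) with h3 | h3
  · nlinarith
  · rw [ramp_eq_one hκ h3, sub_self, mul_zero]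
    positivity

end Corner

/-- **One block**, with the corners in an ideal. -/
theorem block_ideal {A₀ : Set A} (hI : IsClosedIdeal A₀) {nW : ℕ} (hnW : 1 ≤ nW)
    (hP : AmpPI A₀ nW) {ε : ℝ} (hε : 0 < ε) :
    ∃ N : ℕ, ∀ κ : ℝ, 0 < κ → κ ≤ 1 / 4 →
      ∃ C : ℝ, 0 < C ∧ ∀ (k n : ℕ) (U : Units n A), (∀ o, U.E o o ∈ A₀) →
        ∃ (a s b : Fin 2 × Fin N → A) (G F : A),
          (∀ p, s p * s p = 0 ∧ U.Good (C / (k + 1)) N (a p) ∧ U.Good (C / (k + 1)) N (s p) ∧
            U.Good (C / (k + 1)) N (b p)) ∧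
          U.Good (C / (k + 1)) 2 G ∧ U.Good (C / (k + 1)) 1 F ∧
          ‖G - ∑ p, a p * s p * b p‖ ≤ ε ∧ ‖G * F - U.H * U.H‖ ≤ 9 * κ ^ 2 := by
  obtain ⟨N, hN⟩ := halving_ideal hnW hI hP (half_pos hε)
  refine ⟨N, fun κ hκ _ => ⟨2 * (N + 1) / κ, by positivity, fun k n U hUA => ?_⟩⟩
  rcases Nat.eq_zero_or_pos n with hn | hn
  · subst hn
    have hH : U.H = 0 := by simp [Units.H]
    have hgood : ∀ K : ℝ, 0 ≤ K → U.Good (2 * (N + 1) / κ / (k + 1)) K 0 := fun K hK =>
      ⟨fun w _ _ => by simp only [zero_mul, mul_zero, sub_self, norm_zero]; positivity,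
        ⟨0, by simp⟩, ⟨0, by simp⟩, by simpa using hK⟩
    refine ⟨fun _ => 0, fun _ => 0, fun _ => 0, 0, 0, fun p => ⟨by simp, hgood _ (by positivity),
      hgood _ (by positivity), hgood _ (by positivity)⟩, hgood _ two_pos.le, hgood _ zero_le_one,
      by simpa using hε.le, by simp [hH]; positivity⟩
  set o : Fin n := ⟨0, hn⟩
  set h := U.E o o with hh
  have hsa : IsSelfAdjoint h := isSelfAdjoint_E U o
  set W := κ / (k + 1) with hWdef
  have hW0 : 0 < W := by positivity
  have hWκ : W ≤ κ := div_le_self hκ.le (le_add_of_nonneg_left (Nat.cast_nonneg k))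
  set M := ⌈((k : ℝ) + 1) / κ⌉₊
  have hMW : 1 ≤ (M : ℝ) * W := by
    have := Nat.le_ceil (((k : ℝ) + 1) / κ)
    calc (1 : ℝ) = ((k : ℝ) + 1) / κ * W := by rw [hWdef]; field_simp
      _ ≤ M * W := by gcongr
  let c : ℕ → ℝ := fun J => 2 * κ + J * W
  have hc : ∀ J, 2 * κ ≤ c J := fun J => le_add_of_nonneg_right (by positivity)
  let S : Fin 2 → Finset ℕ := fun par => (Finset.range (M + 1)).filter fun J => J % 2 = par
  let L : ℕ → ℕ → A := fun i J => cfc (fun t => lev i (tent W (c J) t)) h
  have hcont : ∀ i J, Continuous fun t => lev i (tent W (c J) t) := fun i J =>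
    (continuous_lev i).comp (continuous_tent _ _)
  have hL : ∀ i J, cfc (lev i) (cfc (tent W (c J)) h) = L i J := fun i J =>
    (cfc_comp' (lev i) (tent W (c J)) h (continuous_lev i).continuousOn
      (continuous_tent _ _).continuousOn hsa).symm
  have hLs : ∀ i J, star (L i J) = L i J := fun i J =>
    (cfc_predicate (fun t => lev i (tent W (c J) t)) h).star_eq
  -- halving at each tent
  have hhalf : ∀ J : ℕ, ∃ a s b : Fin N → A, (∀ j, s j * s j = 0 ∧
      (‖a j‖ ≤ N ∧ ‖s j‖ ≤ N ∧ ‖b j‖ ≤ N) ∧ InCorner (L 0 J) (a j) ∧ InCorner (L 0 J) (s j) ∧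
      InCorner (L 0 J) (b j)) ∧ ‖L 4 J * L 4 J * L 4 J - ∑ i, a i * s i * b i‖ ≤ ε / 2 := by
    intro J
    have h1 : ‖cfc (tent W (c J)) h‖ ≤ 1 := norm_cfc_le zero_le_one fun t _ => by
      rw [Real.norm_eq_abs, abs_of_nonneg (tent_mem hW0 _ t).1]
      exact (tent_mem hW0 _ t).2
    obtain ⟨a, s, b, hab⟩ := hN (cfc (tent W (c J)) h)
      (cfc_mem_of_zero hI hsa (hUA o) (continuous_tent _ _) (max_eq_left (sub_nonpos.2
        ((one_le_div hW0).2 (by rw [zero_sub, abs_neg]
                                exact le_trans (by linarith [hc J]) (le_abs_self _))))))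
      (cfc_predicate _ _) h1
    simp only [hL] at hab
    exact ⟨a, s, b, hab⟩
  choose a s b hab hsum using hhalf
  -- the tents of one parity are orthogonal
  have horth : ∀ par, ∀ J ∈ S par, ∀ J' ∈ S par, J ≠ J' → L 0 J * L 0 J' = 0 := by
    intro par J hJ J' hJ' hne
    simp only [L]
    rw [← cfc_mul _ _ h (hcont 0 J).continuousOn (hcont 0 J').continuousOn]
    refine (cfc_congr fun t _ => ?_).trans (cfc_const_zero ℝ h)
    rcases le_or_gt W |t - c J| with h1 | h1
    · rw [lev_tent_eq_zero hW0 h1, zero_mul]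
    · rw [lev_tent_eq_zero hW0 (?_ : W ≤ |t - c J'|), mul_zero]
      simp only [S, Finset.mem_filter] at hJ hJ'
      have h2 : 2 * W ≤ |c J - c J'| := by
        rw [show c J - c J' = ((J : ℝ) - J') * W by simp only [c]; ring, abs_mul,
          abs_of_pos hW0]
        refine mul_le_mul_of_nonneg_right ?_ hW0.le
        rcases (show J + 2 ≤ J' ∨ J' + 2 ≤ J by omega) with hle | hle
        · have : (J : ℝ) + 2 ≤ J' := by exact_mod_cast hle
          rw [abs_of_nonpos (by linarith)]; linarith
        · have : (J' : ℝ) + 2 ≤ J := by exact_mod_cast hle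
          rw [abs_of_nonneg (by linarith)]; linarith
      have h3 := abs_sub_le (c J) t (c J')
      rw [abs_sub_comm (c J) t] at h3
      linarith
  have hsupp : ∀ J, InCorner (cutOne U o κ) (L 0 J) := fun J =>
    inCorner_cfc U o hκ (hcont 0 J) fun t _ ht => by
      by_contra hlt
      refine ht (lev_tent_eq_zero hW0 ?_ 0)
      rw [abs_sub_comm]
      exact le_trans (by linarith [hc J]) (le_abs_self _)
  have hlift : ∀ J x, InCorner (L 0 J) x → InCorner (cutOne U o κ) x := fun J x hx =>
    hx.mono (hsupp J).1 (hsupp J).2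
  have hL4 : ∀ J, InCorner (L 0 J) (L 4 J) := fun J => by
    have e : ∀ i i', L i J * L i' J = cfc (fun t => lev i (tent W (c J) t) *
        lev i' (tent W (c J) t)) h := fun i i' =>
      (cfc_mul _ _ h (hcont i J).continuousOn (hcont i' J).continuousOn).symm
    refine ⟨?_, ?_⟩
    · rw [e]; exact cfc_congr fun t _ => lev_mul_lev (by norm_num) _
    · rw [e]; exact cfc_congr fun t _ => (mul_comm _ _).trans (lev_mul_lev (by norm_num) _)
  -- sums over one parity
  let X : (ℕ → Fin N → A) → Fin 2 × Fin N → A := fun z p => ∑ J ∈ S p.1, z J p.2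
  have hXgood : ∀ z : ℕ → Fin N → A, (∀ J j, InCorner (L 0 J) (z J j) ∧ ‖z J j‖ ≤ N) →
      ∀ p, InCorner (cutOne U o κ) (X z p) ∧
        U.Good (2 * (N + 1) / κ / (k + 1)) N (U.theta o κ (X z p)) := by
    intro z hz p
    have hcor : InCorner (cutOne U o κ) (X z p) :=
      InCorner.sum _ fun J _ => hlift J _ (hz J p.2).1
    refine ⟨hcor, good_theta U o hκ hcor (δ' := 2 * W * N) ?_ ?_
      (norm_sum_of_corners (horth p.1) (hLs 0) (fun J _ => (hz J p.2).1) (Nat.cast_nonneg N)
        fun J _ => (hz J p.2).2)⟩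
    · simp only [X, Finset.sum_mul, Finset.mul_sum, ← Finset.sum_sub_distrib]
      have hcomm : ∀ J, Commute (L 0 J) h := fun J =>
        ((Commute.refl h).cfc_real fun t => lev 0 (tent W (c J) t))
      refine norm_sum_of_corners (horth p.1) (hLs 0) (fun J _ => ?_) (by positivity) fun J _ => ?_
      · obtain ⟨⟨h1, h2⟩, -⟩ := hz J p.2
        rw [hh] at hcomm
        constructor
        · rw [mul_sub, ← mul_assoc, h1, ← mul_assoc, (hcomm J).eq, mul_assoc, h1]
        · rw [sub_mul, mul_assoc, ← (hcomm J).eq, ← mul_assoc, h2, mul_assoc, h2]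
      · obtain ⟨⟨h1, h2⟩, h3⟩ := hz J p.2
        set l := L 0 J
        have hl : ‖h * l - (c J) • l‖ ≤ W := by
          simp only [l, L]
          nth_rw 1 [← cfc_id' ℝ h hsa]
          rw [← cfc_mul (fun t : ℝ => t) _ h continuousOn_id (hcont 0 J).continuousOn,
            ← cfc_smul (c J) _ h (hcont 0 J).continuousOn,
            ← cfc_sub (fun t => t * lev 0 (tent W (c J) t))
              (fun t => c J • lev 0 (tent W (c J) t)) h (continuous_id.mul (hcont 0 J)).continuousOn
              ((hcont 0 J).const_smul (c J)).continuousOn]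
          refine norm_cfc_le hW0.le fun t _ => ?_
          rw [Real.norm_eq_abs, smul_eq_mul, ← sub_mul, abs_mul,
            abs_of_nonneg (lev_mem 0 _).1]
          rcases le_or_gt W |t - c J| with h4 | h4
          · rw [lev_tent_eq_zero hW0 h4, mul_zero]; exact hW0.le
          · exact (mul_le_of_le_one_right (abs_nonneg _) (lev_mem 0 _).2).trans h4.le
        set x := z J p.2
        have e : x * h - h * x = x * (h * l - c J • l) - (h * l - c J • l) * x := by
          rw [mul_sub, sub_mul, mul_smul_comm, smul_mul_assoc, h1, h2, mul_assoc h l, h1,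
            sub_sub_sub_cancel_right, ← (hcomm J).eq, ← mul_assoc, h2]
        rw [← hh, e]
        refine (norm_sub_le _ _).trans ?_
        have h5 := norm_mul_le x (h * l - c J • l)
        have h6 := norm_mul_le (h * l - c J • l) x
        nlinarith [norm_nonneg x, mul_le_mul h3 hl (norm_nonneg _) (Nat.cast_nonneg N)]
    · rw [hWdef]
      field_simp
      nlinarith
  have hA := hXgood a fun J j => ⟨(hab J j).2.2.1, (hab J j).2.1.1⟩
  have hS := hXgood s fun J j => ⟨(hab J j).2.2.2.1, (hab J j).2.1.2.1⟩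
  have hB := hXgood b fun J j => ⟨(hab J j).2.2.2.2, (hab J j).2.1.2.2⟩
  -- the sum of the cubes and its cut inverse
  let gs : ℝ → ℝ := fun t => ∑ par : Fin 2, ∑ J ∈ S par, lev 4 (tent W (c J) t) *
    lev 4 (tent W (c J) t) * lev 4 (tent W (c J) t)
  have hgsc : Continuous gs := continuous_finsetSum _ fun par _ => continuous_finsetSum _
    fun J _ => ((hcont 4 J).mul (hcont 4 J)).mul (hcont 4 J)
  set Gs := cfc gs h with hGs
  have hGs' : Gs = ∑ par : Fin 2, ∑ J ∈ S par, L 4 J * L 4 J * L 4 J := by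
    simp only [L]
    let g3 : ℕ → ℝ → ℝ := fun J t => lev 4 (tent W (c J) t) * lev 4 (tent W (c J) t) *
      lev 4 (tent W (c J) t)
    have hg3 : ∀ J, Continuous (g3 J) := fun J => ((hcont 4 J).mul (hcont 4 J)).mul (hcont 4 J)
    let gp : Fin 2 → ℝ → ℝ := fun par => ∑ J ∈ S par, g3 J
    have hgp : ∀ par, Continuous (gp par) := fun par => by
      simpa only [gp, Finset.sum_fn] using continuous_finsetSum (S par) fun J _ => hg3 J
    rw [hGs, show gs = ∑ par : Fin 2, gp par by ext t; simp [gs, gp, g3],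
      cfc_sum gp h _ fun par _ => (hgp par).continuousOn]
    refine Finset.sum_congr rfl fun par _ => ?_
    rw [cfc_sum g3 h _ fun J _ => (hg3 J).continuousOn]
    refine Finset.sum_congr rfl fun J _ => ?_
    simp only [g3]
    rw [cfc_mul (fun t => lev 4 (tent W (c J) t) * lev 4 (tent W (c J) t))
        (fun t => lev 4 (tent W (c J) t)) h ((hcont 4 J).mul (hcont 4 J)).continuousOn
        (hcont 4 J).continuousOn,
      cfc_mul _ _ h (hcont 4 J).continuousOn (hcont 4 J).continuousOn]
  have hcube : ∀ J, InCorner (L 0 J) (L 4 J * L 4 J * L 4 J) := fun J =>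
    ((hL4 J).mul (hL4 J)).mul (hL4 J)
  have hGcor : InCorner (cutOne U o κ) Gs := by
    rw [hGs']
    exact InCorner.sum _ fun par _ => InCorner.sum _ fun J _ => hlift J _ (hcube J)
  let f : ℝ → ℝ := fun t => t ^ 2 * ramp κ t / max (gs t) 1
  have hfc : Continuous f := ((continuous_id.pow 2).mul (continuous_ramp κ)).div
    (hgsc.max continuous_const) fun t => (lt_max_of_lt_right one_pos).ne'
  have hfcor : InCorner (cutOne U o κ) (cfc f h) := inCorner_cfc U o hκ hfc fun t _ ht => by
    by_contra hlt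
    exact ht (by simp [f, ramp_eq_zero hκ (show t ≤ 2 * κ by linarith)])
  have hgs1 : ∀ t, 2 * κ ≤ t → t ≤ 1 → 1 ≤ gs t := by
    intro t ht1 ht2
    set x := (t - 2 * κ) / W + 1 / 2 with hx
    have hx0 : 0 ≤ x := add_nonneg (div_nonneg (by linarith) hW0.le) (by norm_num)
    have hd : (t - 2 * κ) / W ≤ M := by rw [div_le_iff₀ hW0]; linarith
    set J := ⌊x⌋₊
    have hJ : J ∈ S ⟨J % 2, Nat.mod_lt _ two_pos⟩ := by
      simp only [S, Finset.mem_filter, Finset.mem_range, and_true]
      rw [Nat.floor_lt hx0]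
      push_cast
      linarith
    have hJc : |t - c J| ≤ W / 2 := by
      have h1 := Nat.floor_le hx0
      have h2 := Nat.lt_floor_add_one x
      have e : t - c J = ((t - 2 * κ) / W - J) * W := by
        rw [sub_mul, div_mul_cancel₀ _ hW0.ne']; simp only [c]; ring
      rw [e, abs_mul, abs_of_pos hW0, show W / 2 = 1 / 2 * W by ring]
      refine mul_le_mul_of_nonneg_right ?_ hW0.le
      rw [abs_le]
      constructor <;> norm_num <;> linarith
    have hnn : ∀ J', 0 ≤ lev 4 (tent W (c J') t) * lev 4 (tent W (c J') t) *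
        lev 4 (tent W (c J') t) := fun J' => by
      have := (lev_mem 4 (tent W (c J') t)).1; positivity
    refine le_trans ?_ (Finset.single_le_sum (fun par _ => Finset.sum_nonneg fun J' _ => hnn J')
      (Finset.mem_univ (⟨J % 2, Nat.mod_lt _ two_pos⟩ : Fin 2)))
    refine le_trans (le_of_eq ?_) (Finset.single_le_sum (fun J' _ => hnn J') hJ)
    rw [lev_four_tent_eq_one hW0 hJc, one_mul, one_mul]
  have hcom0 : ∀ g : ℝ → ℝ, ‖cfc g h * U.E o o - U.E o o * cfc g h‖ ≤ (0 : ℝ) := fun g => by
    rw [← hh, ((Commute.refl h).cfc_real g).eq, sub_self, norm_zero]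
  refine ⟨fun p => U.theta o κ (X a p), fun p => U.theta o κ (X s p),
    fun p => U.theta o κ (X b p), U.theta o κ Gs, U.theta o κ (cfc f h),
    fun p => ⟨?_, (hA p).2, (hS p).2, (hB p).2⟩,
    good_theta U o hκ hGcor (hcom0 gs) (by rw [mul_zero]; positivity) ?_,
    good_theta U o hκ hfcor (hcom0 f) (by rw [mul_zero]; positivity) ?_, ?_, ?_⟩
  · rw [theta_mul_of_corner U o _ (hS p).1,
      sum_mul_sum_of_corners (horth p.1) (fun J _ => (hab J p.2).2.2.2.1)
        (fun J _ => (hab J p.2).2.2.2.1),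
      Finset.sum_eq_zero fun J _ => (hab J p.2).1]
    simp [Units.theta]
  · rw [hGs', Fin.sum_univ_two]
    have hb : ∀ par, ‖∑ J ∈ S par, L 4 J * L 4 J * L 4 J‖ ≤ 1 := fun par =>
      norm_sum_of_corners (horth par) (hLs 0) (fun J _ => hcube J) zero_le_one fun J _ => by
        have h4 : ‖L 4 J‖ ≤ 1 := norm_cfc_le zero_le_one fun t _ => by
          rw [Real.norm_eq_abs, abs_of_nonneg (lev_mem 4 _).1]; exact (lev_mem 4 _).2
        exact norm_mul₃_le.trans
          (mul_le_one₀ (mul_le_one₀ h4 (norm_nonneg _) h4) (norm_nonneg _) h4)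
    exact (norm_add_le _ _).trans ((add_le_add (hb 0) (hb 1)).trans_eq (by norm_num))
  · refine norm_cfc_le zero_le_one fun t ht => ?_
    obtain ⟨ht0, ht1⟩ := spec_E U o ht
    have hm : 1 ≤ max (gs t) 1 := le_max_right _ _
    have hr := ramp_mem κ t
    simp only [f]
    rw [Real.norm_eq_abs, abs_of_nonneg (div_nonneg (mul_nonneg (sq_nonneg t) hr.1) (by linarith)),
      div_le_one (by linarith)]
    nlinarith
  · have hterm : ∀ p : Fin 2 × Fin N, U.theta o κ (X a p) * U.theta o κ (X s p) *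
        U.theta o κ (X b p) = U.theta o κ (∑ J ∈ S p.1, a J p.2 * s J p.2 * b J p.2) := by
      intro p
      rw [theta_mul_of_corner U o _ (hS p).1, theta_mul_of_corner U o _ (hB p).1,
        sum_mul_sum_of_corners (horth p.1) (fun J _ => (hab J p.2).2.2.1)
          (fun J _ => (hab J p.2).2.2.2.1),
        sum_mul_sum_of_corners (horth p.1)
          (fun J _ => (hab J p.2).2.2.1.mul (hab J p.2).2.2.2.1)
          (fun J _ => (hab J p.2).2.2.2.2)]
    rw [Finset.sum_congr rfl fun p _ => hterm p, ← U.theta_sum, ← U.theta_sub]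
    refine (U.norm_theta_le o hκ _).trans ?_
    rw [hGs', Fintype.sum_prod_type, ← Finset.sum_sub_distrib]
    refine (norm_sum_le _ _).trans ((Finset.sum_le_sum (g := fun _ => ε / 2) fun par _ => ?_).trans
      (le_of_eq (by simp; ring)))
    dsimp only
    rw [Finset.sum_comm, ← Finset.sum_sub_distrib]
    refine norm_sum_of_corners (horth par) (hLs 0) (fun J _ => (hcube J).sub (InCorner.sum _
      fun j _ => ((hab J j).2.2.1.mul (hab J j).2.2.2.1).mul (hab J j).2.2.2.2))
      (by positivity) fun J _ => ?_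
    exact hsum J
  · rw [theta_mul_of_corner U o _ hfcor, hGs,
      ← cfc_mul gs f h hgsc.continuousOn hfc.continuousOn]
    refine le_of_eq_of_le ?_ (theta_cfc_sq U o hκ)
    rw [cfc_congr (g := fun t => t ^ 2 * ramp κ t) fun t ht => ?_]
    obtain ⟨-, ht1⟩ := spec_E U o ht
    simp only [f]
    rcases le_total t (2 * κ) with h2 | h2
    · simp [ramp_eq_zero hκ h2]
    · rw [max_eq_left (hgs1 t h2 ht1), mul_div_cancel₀]
      linarith [hgs1 t h2 ht1]

/-- **One block.** -/
theorem block : BlockStatement.{u} := by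
  intro A _ _ _ hW ε hε
  obtain ⟨nW, hnW, hP⟩ := exists_ampPI_univ hW
  obtain ⟨N, hN⟩ := block_ideal (A₀ := (Set.univ : Set A)) ⟨trivial, fun _ _ _ _ => trivial,
    fun _ _ _ => trivial, fun _ _ _ => trivial, fun _ _ _ => trivial, isClosed_univ⟩ hnW hP hε
  refine ⟨N, fun κ hκ hκ4 => ?_⟩
  obtain ⟨C, hC, hCU⟩ := hN κ hκ hκ4
  exact ⟨C, hC, fun k n U => hCU k n U fun _ => trivial⟩

end Vale.Agent.P133.NucDim
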