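import Vale.Agent.P133.NucDim.Defs
import Vale.Agent.P133.FinDim.Defs
import Vale.Agent.P101.Defs

/-!
P133, finite nuclear dimension: the two halves of the proof.
-/

noncomputable section

namespace Vale.Agent.P133.NucDim

open Vale.Agent.P101 Vale.Agent.P133.FinDim

universe u

/-- Finite nuclear dimension and weak pure infiniteness give a central dimension drop. -/
def CentralStatement : Prop :=
  ∀ (A : Type u) [CStarAlgebra A] [PartialOrder A] [StarOrderedRing A] [Nontrivial A]
    [TopologicalSpace.SeparableSpace A],
    HasFiniteNuclearDimension A → IsWeaklyPurelyInfinite A → HasCentralDimensionDrop A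

/-- A central dimension drop turns weak pure infiniteness into strong pure infiniteness. -/
def AbsorbStatement : Prop :=
  ∀ (A : Type u) [CStarAlgebra A] [PartialOrder A] [StarOrderedRing A],
    HasCentralDimensionDrop A → IsWeaklyPurelyInfinite A → IsStronglyPurelyInfinite A

end Vale.Agent.P133.NucDim
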