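import Vale.Agent.P133.NucDim.CentralDefs
import Vale.Agent.P133.NucDim.Specs
import Vale.Agent.P101.Colours
import Vale.Agent.P101.Piece
import Vale.Agent.P101.Orth.Pair
import Vale.Agent.P101.Core.Main
import Vale.Agent.P101.Final

/-!
P133, finite nuclear dimension: the blocks leave no character on the central sequence algebra, so
there is a central dimension drop.
-/

noncomputable section

namespace Vale.Agent.P133.NucDim

open Filter Topology Vale.Agent.P101 Vale.Agent.P133.FinDim
open scoped BoundedContinuousFunction ComplexOrder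

universe u

variable {A : Type u} [CStarAlgebra A] [PartialOrder A] [StarOrderedRing A]

namespace Units

variable {n : ℕ} (U : Units n A)

/-- What the diagonal kills, all units kill. -/
theorem E_mul_eq_zero {z : A} (hz : U.H * z = 0) (a b : Fin n) : U.E a b * z = 0 := by
  have h1 : star z * U.E b b * z = 0 := by
    refine le_antisymm ?_ (star_left_conjugate_nonneg (U.nonneg b) z)
    calc star z * U.E b b * z ≤ star z * U.H * z := star_left_conjugate_le_conjugate
          (Finset.single_le_sum (fun c _ => U.nonneg c) (Finset.mem_univ b)) z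
      _ = 0 := by rw [mul_assoc, hz, mul_zero]
  have hs : star (CFC.sqrt (U.E b b)) = CFC.sqrt (U.E b b) :=
    (CFC.sqrt_nonneg (U.E b b)).isSelfAdjoint.star_eq
  have h2 : CFC.sqrt (U.E b b) * z = 0 := by
    rw [← CStarRing.star_mul_self_eq_zero_iff, star_mul, hs]
    calc star z * CFC.sqrt (U.E b b) * (CFC.sqrt (U.E b b) * z)
        = star z * (CFC.sqrt (U.E b b) * CFC.sqrt (U.E b b)) * z := by noncomm_ring
      _ = 0 := by rw [CFC.sqrt_mul_sqrt_self _ (U.nonneg b), h1]
  have h3 : U.E b b * z = 0 := by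
    rw [← CFC.sqrt_mul_sqrt_self _ (U.nonneg b), mul_assoc, h2, mul_zero]
  rw [← CStarRing.star_mul_self_eq_zero_iff, star_mul, U.star_E]
  calc star z * U.E b a * (U.E a b * z) = star z * (U.E b a * U.E a b) * z := by noncomm_ring
    _ = star z * U.E b b * (U.E b b * z) := by rw [U.step]; noncomm_ring
    _ = 0 := by rw [h3, mul_zero]

theorem app_mul_eq_zero {z : A} (hz : U.H * z = 0) (m : Matrix (Fin n) (Fin n) ℂ) :
    U.app m * z = 0 := by
  simp [app, Finset.sum_mul, smul_mul_assoc, U.E_mul_eq_zero hz]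

theorem mul_app_eq_zero {z : A} (hz : z * U.H = 0) (m : Matrix (Fin n) (Fin n) ℂ) :
    z * U.app m = 0 := by
  have h : U.H * star z = 0 := by
    rw [← (IsSelfAdjoint.of_nonneg U.H_nonneg).star_eq, ← star_mul, hz, star_zero]
  have hE : ∀ a b, z * U.E a b = 0 := fun a b => by
    have := congrArg star (U.E_mul_eq_zero h b a)
    simpa [star_mul, U.star_E] using this
  simp [app, Finset.mul_sum, mul_smul_comm, hE]

theorem app_comm_H (m : Matrix (Fin n) (Fin n) ℂ) : U.app m * U.H = U.H * U.app m := by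
  simp only [app, Finset.mul_sum, Finset.sum_mul, mul_smul_comm, smul_mul_assoc, H_mul_E]
  refine Finset.sum_congr rfl fun a _ => Finset.sum_congr rfl fun b _ => ?_
  congr 1
  rw [H, Finset.mul_sum, Finset.sum_eq_single_of_mem b (Finset.mem_univ b)]
  · exact U.step a b b
  · exact fun c _ hc => U.zero a b c c hc.symm

/-- The diagonal itself is good. -/
theorem good_H : U.Good 0 1 U.H where
  comm w _ _ := by rw [U.app_comm_H, sub_self, norm_zero]
  left := ⟨1, (mul_one _).symm⟩
  right := ⟨1, (one_mul _).symm⟩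
  norm_le := U.norm_H_le

end Units

namespace Colours

variable {d : ℕ} (D : Colours A d) (c : Fin (d + 1))

/-- The blocks of one colour. -/
def blocks : Finset (Fin D.L) := Finset.univ.filter fun l => D.col l = c

/-- The sum over one colour. -/
def colSum (X : Fin D.L → A) : A := ∑ l ∈ D.blocks c, X l

variable {D c}

theorem orth_blocks {l l' : Fin D.L} (hl : l ∈ D.blocks c) (hl' : l' ∈ D.blocks c) (h : l ≠ l') :
    (D.U l).H * (D.U l').H = 0 := by
  simp only [blocks, Finset.mem_filter] at hl hl'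
  exact D.orth l l' (hl.2.trans hl'.2.symm) h

theorem eta_one_le (D : Colours A d) (c : Fin (d + 1)) :
    0 ≤ D.eta c 1 ∧ D.eta c 1 ≤ D.colSum c fun l => (D.U l).H :=
  ⟨Finset.sum_nonneg fun l _ => (D.mono l 1 zero_le_one le_rfl).1,
    Finset.sum_le_sum fun l _ => D.one_le l⟩

theorem app_le_one {l : Fin D.L} {a : A} (h0 : 0 ≤ a) (h1 : a ≤ 1) :
    0 ≤ (D.U l).app (D.m l a) ∧ (D.U l).app (D.m l a) ≤ 1 :=
  ⟨(D.mono l a h0 h1).1, (D.mono l a h0 h1).2.trans ((D.one_le l).trans
    (Finset.sum_le_sum_of_subset_of_nonneg (Finset.subset_univ _) (fun i _ _ => (D.U l).nonneg i)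
      |>.trans (D.U l).sum_le))⟩

variable {δ C : ℝ} {X Y : Fin D.L → A}

theorem mul_eq_zero_of_good (hY : ∀ l, (D.U l).Good δ C (Y l)) {z : A} {l' : Fin D.L}
    (hz : z * (D.U l').H = 0) : z * Y l' = 0 := by
  obtain ⟨y, hy⟩ := (hY l').left
  rw [hy, ← mul_assoc, hz, zero_mul]

theorem good_mul_H (hX : ∀ l, (D.U l).Good δ C (X l)) {l l' : Fin D.L} (hl : l ∈ D.blocks c)
    (hl' : l' ∈ D.blocks c) (h : l ≠ l') : X l * (D.U l').H = 0 ∧ (D.U l').H * X l = 0 := by
  obtain ⟨y, hy⟩ := (hX l).right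
  obtain ⟨y', hy'⟩ := (hX l).left
  refine ⟨?_, ?_⟩
  · rw [hy, mul_assoc, orth_blocks hl hl' h, mul_zero]
  · rw [hy', ← mul_assoc, orth_blocks hl' hl h.symm, zero_mul]

theorem app_mul_H {l l' : Fin D.L} (hl : l ∈ D.blocks c) (hl' : l' ∈ D.blocks c) (h : l ≠ l')
    (m : Matrix (Fin (D.size l)) (Fin (D.size l)) ℂ) :
    (D.U l).app m * (D.U l').H = 0 ∧ (D.U l').H * (D.U l).app m = 0 :=
  ⟨(D.U l).app_mul_eq_zero (orth_blocks hl hl' h) m,
    (D.U l).mul_app_eq_zero (orth_blocks hl' hl h.symm) m⟩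

theorem colSum_mul {δ' C' : ℝ} (hX : ∀ l, (D.U l).Good δ C (X l))
    (hY : ∀ l, (D.U l).Good δ' C' (Y l)) :
    D.colSum c X * D.colSum c Y = D.colSum c fun l => X l * Y l := by
  simp only [colSum, Finset.sum_mul_sum]
  refine Finset.sum_congr rfl fun l hl => ?_
  exact Finset.sum_eq_single_of_mem l hl fun l' hl' h =>
    mul_eq_zero_of_good hY (good_mul_H hX hl hl' h.symm).1

theorem norm_colSum_le {Z : Fin D.L → A} (hC : 0 ≤ C) (hn : ∀ l ∈ D.blocks c, ‖Z l‖ ≤ C)
    (h : ∀ l ∈ D.blocks c, ∀ l' ∈ D.blocks c, l ≠ l' →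
      star (Z l) * Z l' = 0 ∧ Z l * star (Z l') = 0) : ‖D.colSum c Z‖ ≤ C :=
  norm_sum_orth_le _ _ (fun i hi j hj hij => (h i hi j hj hij).1)
    (fun i hi j hj hij => (h i hi j hj hij).2) hC hn

/-- Elements `z` of the form `H y` and `y H`, summed with orthogonality. -/
theorem norm_colSum_range_le {Z : Fin D.L → A} (hC : 0 ≤ C) (hn : ∀ l ∈ D.blocks c, ‖Z l‖ ≤ C)
    (hl : ∀ l, ∃ y, Z l = (D.U l).H * y) (hr : ∀ l, ∃ y, Z l = y * (D.U l).H) :
    ‖D.colSum c Z‖ ≤ C := by
  refine norm_colSum_le hC hn fun l hml l' hml' hne => ?_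
  have hs : ∀ k, star (D.U k).H = (D.U k).H := fun k =>
    (IsSelfAdjoint.of_nonneg (D.U k).H_nonneg).star_eq
  obtain ⟨y, hy⟩ := hl l
  obtain ⟨y', hy'⟩ := hl l'
  obtain ⟨z, hz⟩ := hr l
  obtain ⟨z', hz'⟩ := hr l'
  refine ⟨?_, ?_⟩
  · rw [hy, hy', star_mul, hs, mul_assoc, ← mul_assoc (D.U l).H, orth_blocks hml hml' hne,
      zero_mul, mul_zero]
  · rw [hz, hz', star_mul, hs, mul_assoc, ← mul_assoc (D.U l).H, orth_blocks hml hml' hne,
      zero_mul, mul_zero]

theorem norm_colSum_good_le (hC : 0 ≤ C) (hX : ∀ l, (D.U l).Good δ C (X l)) :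
    ‖D.colSum c X‖ ≤ C :=
  norm_colSum_range_le hC (fun l _ => (hX l).norm_le) (fun l => (hX l).left) fun l => (hX l).right

theorem norm_eta_one_le (D : Colours A d) (c : Fin (d + 1)) : ‖D.eta c 1‖ ≤ 1 :=
  (CStarAlgebra.norm_le_norm_of_nonneg_of_le (D.eta_one_le c).1 (D.eta_one_le c).2).trans
    (norm_colSum_good_le zero_le_one fun l => (D.U l).good_H)

/-- The commutator with the colour map is the largest commutator in a block. -/
theorem norm_comm_eta_le (hδ : 0 ≤ δ) (hX : ∀ l, (D.U l).Good δ C (X l)) {a : A} (h0 : 0 ≤ a)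
    (h1 : a ≤ 1) : ‖D.colSum c X * D.eta c a - D.eta c a * D.colSum c X‖ ≤ δ := by
  set p : Fin D.L → A := fun l => (D.U l).app (D.m l a) with hp
  have hps : ∀ l, star (p l) = p l := fun l => (IsSelfAdjoint.of_nonneg (app_le_one h0 h1).1).star_eq
  have hpH : ∀ l ∈ D.blocks c, ∀ l' ∈ D.blocks c, l ≠ l' →
      p l * (D.U l').H = 0 ∧ (D.U l').H * p l = 0 := fun l hl l' hl' h => app_mul_H hl hl' h _
  have e : D.colSum c X * D.eta c a - D.eta c a * D.colSum c X =
      D.colSum c fun l => X l * p l - p l * X l := by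
    simp only [colSum, eta, ← blocks.eq_1, Finset.sum_mul_sum, Finset.sum_sub_distrib]
    congr 1
    · refine Finset.sum_congr rfl fun l hl => Finset.sum_eq_single_of_mem l hl fun l' hl' h => ?_
      obtain ⟨y, hy⟩ := (hX l).right
      rw [hy, mul_assoc, (hpH l' hl' l hl h).2, mul_zero]
    · refine Finset.sum_congr rfl fun l hl => Finset.sum_eq_single_of_mem l hl fun l' hl' h => ?_
      exact mul_eq_zero_of_good hX (hpH l hl l' hl' h.symm).1
  rw [e]
  refine norm_colSum_le hδ (fun l _ => ?_) fun l hl l' hl' h => ?_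
  · obtain ⟨w, hw⟩ := D.sq l a h0
    simp only [hp]
    rw [hw]
    exact (hX l).comm w (hw ▸ (app_le_one h0 h1).1) (hw ▸ (app_le_one h0 h1).2)
  -- everything from the right or the left of the block `l` kills the block `l'`
  have hs : ∀ k, star (D.U k).H = (D.U k).H := fun k =>
    (IsSelfAdjoint.of_nonneg (D.U k).H_nonneg).star_eq
  have hT : ∀ i ∈ D.blocks c, ∀ j ∈ D.blocks c, i ≠ j →
      (X i * p i - p i * X i) * (D.U j).H = 0 ∧ (D.U j).H * (X i * p i - p i * X i) = 0 := by
    intro i hi j hj hij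
    constructor
    · rw [sub_mul, mul_assoc, (hpH i hi j hj hij).1, mul_zero, mul_assoc,
        (good_mul_H hX hi hj hij).1, mul_zero, sub_zero]
    · rw [mul_sub, ← mul_assoc, (good_mul_H hX hi hj hij).2, zero_mul, ← mul_assoc,
        (hpH i hi j hj hij).2, zero_mul, sub_zero]
  have hkill : ∀ z : A, z * (D.U l').H = 0 → z * (X l' * p l' - p l' * X l') = 0 := by
    intro z hz
    rw [mul_sub, ← mul_assoc, mul_eq_zero_of_good hX hz, zero_mul, ← mul_assoc,
      (D.U l').mul_app_eq_zero hz, zero_mul, sub_zero]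
  refine ⟨hkill _ ?_, ?_⟩
  · rw [← hs l', ← star_mul, (hT l hl l' hl' h).2, star_zero]
  · have hk : (D.U l').H * star (X l * p l - p l * X l) = 0 := by
      rw [← hs l', ← star_mul, (hT l hl l' hl' h).1, star_zero]
    obtain ⟨y, hy⟩ := (hX l').right
    have h2 : (X l' * p l' - p l' * X l') * star (X l * p l - p l * X l) = 0 := by
      rw [sub_mul, mul_assoc, (D.U l').app_mul_eq_zero hk, mul_zero, mul_assoc, hy,
        mul_assoc y, hk, mul_zero, mul_zero, sub_zero]
    rw [← star_star (X l * p l - p l * X l), ← star_mul, h2, star_zero]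

end Colours

section Char

omit [PartialOrder A] [StarOrderedRing A]

/-- The real functional calculus on the sequence algebra. -/
local instance seqQuotCFC' : ContinuousFunctionalCalculus ℝ (SeqQuot A atTop) IsSelfAdjoint :=
  IsSelfAdjoint.instContinuousFunctionalCalculus (A := SeqQuot A atTop)

/-- Evaluation of a bounded sequence. -/
def evalAt (k : ℕ) : (ℕ →ᵇ A) →+ A where
  toFun f := f k
  map_zero' := rfl
  map_add' _ _ := rfl

/-- A bounded sequence as a bounded continuous function. -/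
def bseq (f : ℕ → A) (C : ℝ) (h : ∀ n, ‖f n‖ ≤ C) : ℕ →ᵇ A :=
  .ofNormedAddCommGroup f continuous_of_discreteTopology C h

variable [PartialOrder A] [StarOrderedRing A]

/-- A character is nonnegative on classes of nonnegative sequences. -/
theorem char_nonneg (χ : centSub A atTop →⋆ₐ[ℂ] ℂ) {y : centSub A atTop} {f : ℕ →ᵇ A}
    (hy : (y : SeqQuot A atTop) = seqMk A atTop f) (hf : ∀ n, 0 ≤ f n) :
    0 ≤ (χ y).re ∧ χ y = ((χ y).re : ℂ) := by
  let g : ℕ →ᵇ A := bseq (fun n => CFC.sqrt (f n)) (Real.sqrt ‖f‖) fun n => by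
    rw [CFC.norm_sqrt _ (hf n)]
    exact Real.sqrt_le_sqrt (f.norm_coe_le_norm n)
  have hg : star g * g = f := BoundedContinuousFunction.ext fun n => by
    show star (CFC.sqrt (f n)) * CFC.sqrt (f n) = f n
    rw [(CFC.sqrt_nonneg (f n)).isSelfAdjoint.star_eq, CFC.sqrt_mul_sqrt_self _ (hf n)]
  have hy' : (y : SeqQuot A atTop) = star (seqMk A atTop g) * seqMk A atTop g := by
    rw [hy, ← map_star, ← map_mul, hg]
  have hys : IsSelfAdjoint y := Subtype.ext (by
    show star (y : SeqQuot A atTop) = y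
    rw [hy']; exact IsSelfAdjoint.star_mul_self _)
  have hre : χ y = ((χ y).re : ℂ) := (Complex.conj_eq_iff_re.1 (hys.map χ).star_eq).symm
  refine ⟨?_, hre⟩
  have h1 : ((χ y).re : ℂ) ∈ spectrum ℂ y := hre ▸ AlgHom.apply_mem_spectrum χ y
  rw [StarSubalgebra.spectrum_eq, hy'] at h1
  refine spectrum_star_mul_self_nonneg (b := seqMk A atTop g) _ ?_
  exact (spectrum.algebraMap_mem_iff ℂ).1 h1

end Char

section Classes

variable {d : ℕ} (D : ℕ → Colours A d) (c : Fin (d + 1))

/-- The class of the colour `c` of the unit. -/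
def hCls : SeqQuot A atTop :=
  seqMk A atTop (bseq (fun n => (D n).eta c 1) 1 fun n => (D n).norm_eta_one_le c)

/-- A family of good elements, one for each block. -/
structure Fam (δ : ℕ → ℝ) (C : ℝ) where
  /-- The elements. -/
  el : ∀ n, Fin (D n).L → A
  good : ∀ n l, ((D n).U l).Good (δ n) C (el n l)
  nonneg : 0 ≤ C
  delta : ∀ n, 0 ≤ δ n
  lim : Tendsto δ atTop (𝓝 0)

variable {D}

/-- The class of one colour of a family. -/
def Fam.cls {δ : ℕ → ℝ} {C : ℝ} (X : Fam D δ C) : SeqQuot A atTop :=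
  seqMk A atTop (bseq (fun n => (D n).colSum c (X.el n)) C fun n =>
    Colours.norm_colSum_good_le X.nonneg (X.good n))

variable {δ : ℕ → ℝ} {C : ℝ} (X : Fam D δ C)

/-- Families commute with the colour of the unit. -/
theorem Fam.commute_hCls : Commute (hCls D c) (X.cls c) := by
  rw [Commute, SemiconjBy, hCls, Fam.cls, ← map_mul, ← map_mul, seqMk_eq_iff]
  refine squeeze_zero (fun n => norm_nonneg _) (fun n => ?_) X.lim
  rw [norm_sub_rev]
  exact Colours.norm_comm_eta_le (X.delta n) (X.good n) zero_le_one le_rfl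

theorem norm_cls_le : ‖X.cls c‖ ≤ C :=
  (norm_seqMk_le _).trans (BoundedContinuousFunction.norm_ofNormedAddCommGroup_le _ X.nonneg _)

theorem norm_hCls_le (D : ℕ → Colours A d) : ‖hCls D c‖ ≤ 1 :=
  (norm_seqMk_le _).trans (BoundedContinuousFunction.norm_ofNormedAddCommGroup_le _ zero_le_one _)

variable {S : Set A} (hS : ∀ a ∈ S, 0 ≤ a ∧ a ≤ 1)
  (hcrit : ∀ f : ℕ → A, (∃ C, ∀ n, ‖f n‖ ≤ C) →
    (∀ a ∈ S, Tendsto (fun n => ‖a * f n - f n * a‖) atTop (𝓝 0)) →
    ∀ a, Tendsto (fun n => ‖a * f n - f n * a‖) atTop (𝓝 0))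
  (happx : ∀ a ∈ S, Tendsto (fun n => ‖(D n).eta c 1 * a - (D n).eta c a‖) atTop (𝓝 0) ∧
    Tendsto (fun n => ‖a * (D n).eta c 1 - (D n).eta c a‖) atTop (𝓝 0))

include hS hcrit happx

theorem hCls_mem : hCls D c ∈ centSub A atTop := by
  rw [hCls, mem_centSub]
  refine hcrit _ ⟨1, fun n => (D n).norm_eta_one_le c⟩ fun a ha => ?_
  obtain ⟨e1, e2⟩ := happx a ha
  refine squeeze_zero (fun n => norm_nonneg _) (fun n => ?_) (by simpa using e2.add e1)
  show ‖a * (D n).eta c 1 - (D n).eta c 1 * a‖ ≤ _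
  rw [← sub_sub_sub_cancel_right _ _ ((D n).eta c a)]
  exact norm_sub_le _ _

theorem Fam.mul_mem : hCls D c * X.cls c ∈ centSub A atTop := by
  rw [hCls, Fam.cls, ← map_mul, mem_centSub]
  refine hcrit _ ⟨1 * C, fun n => (norm_mul_le _ _).trans (mul_le_mul ((D n).norm_eta_one_le c)
    (Colours.norm_colSum_good_le X.nonneg (X.good n)) (norm_nonneg _) zero_le_one)⟩ fun a ha => ?_
  obtain ⟨e1, e2⟩ := happx a ha
  have hlim := (((e2.mul_const C).add X.lim).add (e1.const_mul C)).add X.lim
  refine squeeze_zero (fun n => norm_nonneg _) (fun n => ?_) (by simpa using hlim)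
  show ‖a * ((D n).eta c 1 * (D n).colSum c (X.el n)) -
    (D n).eta c 1 * (D n).colSum c (X.el n) * a‖ ≤ _
  set h := (D n).eta c 1
  set p := (D n).eta c a
  set x := (D n).colSum c (X.el n)
  have hx : ‖x‖ ≤ C := Colours.norm_colSum_good_le X.nonneg (X.good n)
  have ha1 : ‖a‖ ≤ 1 := (CStarAlgebra.norm_le_one_iff_of_nonneg a (hS a ha).1).2 (hS a ha).2
  have c1 : ‖p * x - x * p‖ ≤ δ n := by
    rw [norm_sub_rev]
    exact Colours.norm_comm_eta_le (X.delta n) (X.good n) (hS a ha).1 (hS a ha).2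
  have c2 : ‖x * h - h * x‖ ≤ δ n :=
    Colours.norm_comm_eta_le (X.delta n) (X.good n) zero_le_one le_rfl
  have e : a * (h * x) - h * x * a =
      (a * h - p) * x + (p * x - x * p) + x * (p - h * a) + (x * h - h * x) * a := by noncomm_ring
  rw [e]
  refine (norm_add_le _ _).trans (add_le_add ((norm_add_le _ _).trans (add_le_add
    ((norm_add_le _ _).trans (add_le_add ?_ c1)) ?_)) ?_)
  · exact (norm_mul_le _ _).trans (mul_le_mul_of_nonneg_left hx (norm_nonneg _))
  · refine (norm_mul_le _ _).trans ?_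
    rw [norm_sub_rev p]
    exact mul_le_mul_of_nonneg_right hx (norm_nonneg _)
  · exact (norm_mul_le _ _).trans (mul_le_of_le_one_right (norm_nonneg _) ha1) |>.trans c2

end Classes

/-- The blocks leave no character. -/
theorem isEmpty_char [Nontrivial A] [TopologicalSpace.SeparableSpace A]
    (happ : ApproxStatement.{u}) (hblock : BlockStatement.{u}) (hfd : HasFiniteNuclearDimension A)
    (hW : IsWeaklyPurelyInfinite A) : IsEmpty (centSub A atTop →⋆ₐ[ℂ] ℂ) := by
  refine ⟨fun χ => ?_⟩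
  obtain ⟨d, S, D, ⟨h1S, hS⟩, hcrit, happx⟩ := happ A hfd
  set θ : ℝ := (1 / (d + 1 : ℝ)) ^ 7 with hθ
  have hθ0 : 0 < θ := by positivity
  obtain ⟨N, hN⟩ := hblock A hW (θ / 4) (by positivity)
  obtain ⟨κ, hκ0, hκ, hκ9⟩ : ∃ κ : ℝ, 0 < κ ∧ κ ≤ 1 / 4 ∧ 9 * κ ^ 2 ≤ θ / 4 := by
    have h3 : 0 < min (1 / 4 : ℝ) (θ / 36) := lt_min (by norm_num) (by positivity)
    refine ⟨min (1 / 4) (θ / 36), h3, min_le_left _ _, ?_⟩
    have h1 := min_le_left (1 / 4 : ℝ) (θ / 36)
    have h2 := min_le_right (1 / 4 : ℝ) (θ / 36)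
    nlinarith
  obtain ⟨C, hC, hblk⟩ := hN κ hκ0 hκ
  choose a s b G F habs hG hF hsum hGF using fun n l => hblk n ((D n).size l) ((D n).U l)
  have hδlim : Tendsto (fun n : ℕ => C / (n + 1)) atTop (𝓝 0) := by
    simpa [div_eq_mul_inv] using tendsto_one_div_add_atTop_nhds_zero_nat.const_mul C
  have hδ0 : ∀ n : ℕ, 0 ≤ C / (n + 1 : ℝ) := fun n => by positivity
  let K := centSub A atTop
  have hh : ∀ c, hCls D c ∈ K := fun c => hCls_mem c hS hcrit fun a ha => (happx a ha).1 c
  let hK : Fin (d + 1) → K := fun c => ⟨hCls D c, hh c⟩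
  -- the colours of the unit carry a partition of the unit
  have hone : ∑ c, hK c = 1 := by
    refine Subtype.ext ?_
    push_cast
    rw [← map_one (seqMk A atTop)]
    show ∑ c, hCls D c = _
    simp only [hCls, ← map_sum]
    rw [seqMk_eq_iff]
    refine (happx 1 h1S).2.congr fun n => ?_
    show _ = ‖evalAt n (∑ c, bseq _ 1 _) - 1‖
    rw [map_sum]; rfl
  have hre : ∀ c, 0 ≤ (χ (hK c)).re ∧ χ (hK c) = ((χ (hK c)).re : ℂ) := fun c =>
    char_nonneg χ (y := hK c) rfl fun n => ((D n).eta_one_le c).1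
  obtain ⟨c, hc⟩ : ∃ c, 1 / (d + 1 : ℝ) ≤ (χ (hK c)).re := by
    by_contra hlt
    push_neg at hlt
    have h1 := congrArg (fun z => (χ z).re) hone
    simp only [map_sum, map_one, Complex.re_sum, Complex.one_re] at h1
    have h2 := Finset.sum_lt_sum_of_nonempty Finset.univ_nonempty fun c _ => hlt c
    rw [h1, Finset.sum_const, Finset.card_univ, Fintype.card_fin, nsmul_eq_mul] at h2
    push_cast at h2
    rw [mul_one_div_cancel (by positivity)] at h2
    exact lt_irrefl _ h2
  obtain ⟨ht0, ht⟩ := hre c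
  set t := (χ (hK c)).re
  have hmem := fun {δ : ℕ → ℝ} {C : ℝ} (X : Fam D δ C) =>
    X.mul_mem c hS hcrit fun a ha => (happx a ha).1 c
  let fa : Fin 2 × Fin N → Fam D (fun n => C / (n + 1)) N := fun p =>
    ⟨fun n l => a n l p, fun n l => (habs n l p).2.1, Nat.cast_nonneg N, hδ0, hδlim⟩
  let fs : Fin 2 × Fin N → Fam D (fun n => C / (n + 1)) N := fun p =>
    ⟨fun n l => s n l p, fun n l => (habs n l p).2.2.1, Nat.cast_nonneg N, hδ0, hδlim⟩
  let fb : Fin 2 × Fin N → Fam D (fun n => C / (n + 1)) N := fun p =>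
    ⟨fun n l => b n l p, fun n l => (habs n l p).2.2.2, Nat.cast_nonneg N, hδ0, hδlim⟩
  let fG : Fam D (fun n => C / (n + 1)) 2 := ⟨G, hG, zero_le_two, hδ0, hδlim⟩
  let fF : Fam D (fun n => C / (n + 1)) 1 := ⟨F, hF, zero_le_one, hδ0, hδlim⟩
  let fH : Fam D (fun _ => 0) 1 :=
    ⟨fun n l => ((D n).U l).H, fun n l => ((D n).U l).good_H, zero_le_one, fun _ => le_rfl,
      tendsto_const_nhds⟩
  set h := hCls D c with hhdef
  have hh1 : ‖h‖ ≤ 1 := norm_hCls_le c D
  let kG : K := ⟨h * fG.cls c, hmem fG⟩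
  let kF : K := ⟨h * fF.cls c, hmem fF⟩
  let kH : K := ⟨h * fH.cls c, hmem fH⟩
  let ka : Fin 2 × Fin N → K := fun p => ⟨h * (fa p).cls c, hmem (fa p)⟩
  let ks : Fin 2 × Fin N → K := fun p => ⟨h * (fs p).cls c, hmem (fs p)⟩
  let kb : Fin 2 × Fin N → K := fun p => ⟨h * (fb p).cls c, hmem (fb p)⟩
  -- square zero
  have hks : ∀ p, χ (ks p) = 0 := by
    intro p
    have hz : (fs p).cls c * (fs p).cls c = 0 := by
      rw [Fam.cls, ← map_mul, seqMk_eq_zero]
      refine squeeze_zero (fun n => norm_nonneg _) (fun n => le_of_eq ?_) tendsto_const_nhds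
      show ‖(D n).colSum c ((fs p).el n) * (D n).colSum c ((fs p).el n)‖ = 0
      rw [Colours.colSum_mul ((fs p).good n) ((fs p).good n), norm_eq_zero]
      exact Finset.sum_eq_zero fun l _ => (habs n l p).1
    have h2 : ks p * ks p = 0 := by
      refine Subtype.ext ?_
      show h * (fs p).cls c * (h * (fs p).cls c) = 0
      calc _ = h * ((fs p).cls c * h) * (fs p).cls c := by noncomm_ring
        _ = h * h * ((fs p).cls c * (fs p).cls c) := by
            rw [← ((fs p).commute_hCls c).eq]; noncomm_ring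
        _ = 0 := by rw [hz, mul_zero]
    have h3 := congrArg χ h2
    rw [map_mul, map_zero] at h3
    exact mul_self_eq_zero.1 h3
  have hbnd : ∀ k : K, ‖χ k‖ ≤ ‖(k : SeqQuot A atTop)‖ := fun k =>
    NonUnitalStarAlgHom.norm_apply_le χ k
  -- the approximate identity of the colour
  set E : K := hK c * hK c * kG - ∑ p, ka p * ks p * kb p with hE
  have hEn : ‖(E : SeqQuot A atTop)‖ ≤ θ / 4 := by
    let Z : ℕ →ᵇ A := bseq (fun n => (D n).colSum c fun l => G n l - ∑ p, a n l p * s n l p * b n l p)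
      (θ / 4) fun n => Colours.norm_colSum_range_le (by positivity) (fun l _ => hsum n l) (fun l => ?_)
        fun l => ?_
    · have eE : (E : SeqQuot A atTop) = h * h * h * seqMk A atTop Z := by
        have ep : ∀ p, h * (fa p).cls c * (h * (fs p).cls c) * (h * (fb p).cls c) =
            h * h * h * ((fa p).cls c * (fs p).cls c * (fb p).cls c) := fun p => by
          have ca := ((fa p).commute_hCls c).eq
          have cs := ((fs p).commute_hCls c).eq
          have ca' : ∀ x, (fa p).cls c * (h * x) = h * ((fa p).cls c * x) := fun x => by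
            rw [← mul_assoc, ← ca, mul_assoc]
          have cs' : ∀ x, (fs p).cls c * (h * x) = h * ((fs p).cls c * x) := fun x => by
            rw [← mul_assoc, ← cs, mul_assoc]
          simp only [mul_assoc, ca', cs']
        simp only [E, K, hK, kG, ka, ks, kb]
        push_cast
        rw [Finset.sum_congr rfl fun p _ => ep p, ← Finset.mul_sum, ← mul_assoc, ← hhdef, ← mul_sub]
        congr 1
        simp only [Fam.cls, ← map_mul, ← map_sum, ← map_sub]
        refine congrArg (seqMk A atTop) (BoundedContinuousFunction.ext fun n => ?_)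
        show _ = (D n).colSum c fun l => G n l - ∑ p, a n l p * s n l p * b n l p
        simp only [Colours.colSum, Finset.sum_sub_distrib]
        rw [Finset.sum_comm]
        rw [BoundedContinuousFunction.coe_sub, Pi.sub_apply, BoundedContinuousFunction.coe_sum,
          Finset.sum_apply]
        refine congrArg₂ _ rfl (Finset.sum_congr rfl fun p _ => ?_)
        show (D n).colSum c ((fa p).el n) * (D n).colSum c ((fs p).el n) *
            (D n).colSum c ((fb p).el n) = _
        rw [Colours.colSum_mul ((fa p).good n) ((fs p).good n)]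
        simp only [Colours.colSum, Finset.sum_mul_sum]
        refine Finset.sum_congr rfl fun l hl => Finset.sum_eq_single_of_mem l hl fun l' hl' hne => ?_
        rw [mul_assoc, Colours.mul_eq_zero_of_good ((fb p).good n)
          (Colours.good_mul_H ((fs p).good n) hl hl' hne.symm).1, mul_zero]
      rw [eE]
      refine (norm_mul_le _ _).trans ?_
      refine (mul_le_mul ((norm_mul₃_le).trans (by
        calc ‖h‖ * ‖h‖ * ‖h‖ ≤ 1 * 1 * 1 := by gcongr
          _ = 1 := by norm_num)) ((norm_seqMk_le Z).trans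
        (BoundedContinuousFunction.norm_ofNormedAddCommGroup_le _ (by positivity) _))
        (norm_nonneg _) zero_le_one).trans_eq (one_mul _)
    · obtain ⟨y, hy⟩ := (hG n l).left
      choose z hz using fun p => (habs n l p).2.1.left
      refine ⟨y - ∑ p, z p * s n l p * b n l p, ?_⟩
      rw [mul_sub, Finset.mul_sum, ← hy]
      simp only [← mul_assoc, ← hz]
    · obtain ⟨y, hy⟩ := (hG n l).right
      choose z hz using fun p => (habs n l p).2.2.2.right
      refine ⟨y - ∑ p, a n l p * s n l p * z p, ?_⟩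
      rw [sub_mul, Finset.sum_mul, ← hy]
      simp only [mul_assoc, ← hz]
  have hg : t * t * ‖χ kG‖ ≤ θ / 4 := by
    have e : χ E = (t : ℂ) * t * χ kG := by
      simp [hE, ht, hks]
    have := (hbnd E).trans hEn
    rwa [e, norm_mul, norm_mul, Complex.norm_real, Real.norm_of_nonneg ht0] at this
  -- the product with the corrector
  set E' : K := kG * kF - kH * kH with hE'
  have hE'n : ‖(E' : SeqQuot A atTop)‖ ≤ θ / 4 := by
    have eE : (E' : SeqQuot A atTop) =
        h * h * (fG.cls c * fF.cls c - fH.cls c * fH.cls c) := by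
      simp only [E', K, kG, kF, kH]
      push_cast
      rw [mul_sub]
      congr 1
      · rw [mul_assoc h, ← mul_assoc (fG.cls c), ← (fG.commute_hCls c).eq]; noncomm_ring
      · rw [mul_assoc h, ← mul_assoc (fH.cls c), ← (fH.commute_hCls c).eq]; noncomm_ring
    rw [eE]
    refine norm_mul₃_le.trans ?_
    refine (mul_le_mul (mul_le_one₀ hh1 (norm_nonneg _) hh1) ?_ (norm_nonneg _)
      zero_le_one).trans_eq (one_mul _)
    simp only [Fam.cls, ← map_mul, ← map_sub]
    refine (norm_seqMk_le _).trans ((BoundedContinuousFunction.norm_le (by positivity)).2 fun n => ?_)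
    show ‖(D n).colSum c (fG.el n) * (D n).colSum c (fF.el n) -
      (D n).colSum c (fH.el n) * (D n).colSum c (fH.el n)‖ ≤ _
    rw [Colours.colSum_mul (fG.good n) (fF.good n), Colours.colSum_mul (fH.good n) (fH.good n),
      Colours.colSum, Colours.colSum, ← Finset.sum_sub_distrib]
    refine Colours.norm_colSum_range_le (D := D n) (c := c) (by positivity)
      (fun l _ => (hGF n l).trans hκ9) (fun l => ?_) fun l => ?_
    · obtain ⟨y, hy⟩ := (hG n l).left
      exact ⟨y * F n l - ((D n).U l).H, by simp only [fG, fF, fH]; rw [mul_sub, ← mul_assoc, ← hy]⟩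
    · obtain ⟨y, hy⟩ := (hF n l).right
      exact ⟨G n l * y - ((D n).U l).H, by simp only [fG, fF, fH]; rw [sub_mul, mul_assoc, ← hy]⟩
  have hf : ‖χ kF‖ ≤ 1 := (hbnd kF).trans ((norm_mul_le _ _).trans
    (mul_le_one₀ hh1 (norm_nonneg _) (norm_cls_le c fF)))
  -- the lower bound
  set Y : K := kH - hK c * hK c with hY
  have hu : t * t ≤ ‖χ kH‖ := by
    obtain ⟨hY0, hY1⟩ := char_nonneg χ (y := Y)
      (f := bseq (fun n => (D n).eta c 1) 1 (fun n => (D n).norm_eta_one_le c) *
        (bseq (fun n => (D n).colSum c (fH.el n)) 1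
          (fun n => Colours.norm_colSum_good_le zero_le_one (fH.good n)) -
          bseq (fun n => (D n).eta c 1) 1 fun n => (D n).norm_eta_one_le c))
      (by
        simp only [Y, K, kH, hK, h]
        push_cast
        rw [map_mul, map_sub, mul_sub]
        rfl)
      (fun n => by
        show 0 ≤ (D n).eta c 1 * ((D n).colSum c (fH.el n) - (D n).eta c 1)
        have hcm : (D n).colSum c (fH.el n) * (D n).eta c 1 =
            (D n).eta c 1 * (D n).colSum c (fH.el n) := sub_eq_zero.1 (norm_le_zero_iff.1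
          (Colours.norm_comm_eta_le le_rfl (fH.good n) zero_le_one le_rfl))
        refine Commute.mul_nonneg ((D n).eta_one_le c).1 (sub_nonneg.2 ((D n).eta_one_le c).2) ?_
        exact (Commute.sub_right hcm.symm (Commute.refl _)))
    have hYv : χ Y = χ kH - (t : ℂ) * t := by simp [hY, ht]
    rw [hYv] at hY0 hY1
    have hre : (χ kH - (t : ℂ) * t).re = (χ kH).re - t * t := by simp
    rw [hre] at hY0
    exact le_trans (by linarith) (Complex.re_le_norm _)
  have hmain : θ ≤ t ^ 7 := by rw [hθ]; exact pow_le_pow_left₀ (by positivity) hc 7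
  have ht1 : t ≤ 1 := by
    have := (Complex.re_le_norm _).trans ((hbnd (hK c)).trans hh1)
    exact this
  have hfin : t ^ 3 * ‖χ kH‖ ^ 2 ≤ θ / 2 := by
    have e : χ E' = χ kG * χ kF - χ kH * χ kH := by simp [hE']
    have h1 := (hbnd E').trans hE'n
    rw [e] at h1
    have h2 : ‖χ kH‖ ^ 2 ≤ θ / 4 + ‖χ kG‖ := by
      have h3 := norm_le_norm_sub_add (χ kH * χ kH) (χ kG * χ kF)
      rw [norm_sub_rev, norm_mul, norm_mul, ← sq] at h3
      have := mul_le_of_le_one_right (norm_nonneg (χ kG)) hf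
      linarith
    have h4 : t ^ 3 * ‖χ kG‖ ≤ θ / 4 := by
      have : t * (t * t * ‖χ kG‖) ≤ 1 * (θ / 4) := mul_le_mul ht1 hg (by positivity) zero_le_one
      linarith
    have h5 : t ^ 3 ≤ 1 := pow_le_one₀ ht0 ht1
    nlinarith [mul_le_mul_of_nonneg_left h2 (pow_nonneg ht0 3)]
  have h7 : t ^ 3 * (t * t) ^ 2 ≤ t ^ 3 * ‖χ kH‖ ^ 2 :=
    mul_le_mul_of_nonneg_left (pow_le_pow_left₀ (mul_nonneg ht0 ht0) hu 2) (pow_nonneg ht0 3)
  nlinarith

/-- **The central dimension drop.** -/
theorem central_of (happ : ApproxStatement.{u}) (hblock : BlockStatement.{u}) :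
    CentralStatement.{u} := by
  intro A _ _ _ _ _ hfd hW
  letI : PartialOrder (centSub A atTop) := CStarAlgebra.spectralOrder _
  haveI : StarOrderedRing (centSub A atTop) := CStarAlgebra.spectralOrderedRing _
  obtain ⟨N, δ, hδ, x, hx⟩ := noCharStatement (centSub A atTop) (isEmpty_char happ hblock hfd hW)
  obtain ⟨m, hm⟩ := core_of (orthN_of_orth orthStatement)
    (piece_of_orthN (orthN_of_orth orthStatement)) colours N δ hδ
  obtain ⟨X, hX⟩ := exists_slots hx m
  obtain ⟨y, v, hy, hv, hyv⟩ := hm (centSub A atTop) X hX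
  obtain ⟨Y, hY⟩ := seqMk_surjective (y : SeqQuot A atTop)
  obtain ⟨V, hV⟩ := seqMk_surjective (v : SeqQuot A atTop)
  have e1 := congrArg Subtype.val hy
  have e2 := congrArg Subtype.val hv
  have e3 := congrArg Subtype.val hyv
  push_cast at e1 e2 e3
  refine ⟨Y, V, isCentralSeq_coe (hY ▸ y.2), isCentralSeq_coe (hV ▸ v.2), ?_, ?_, ?_⟩
  · refine (seqMk_eq_zero (f := Y * Y)).1 ?_
    rw [map_mul, hY]; exact e1
  · refine (seqMk_eq_iff (f := star V * V) (g := 1 - star Y * Y - Y * star Y)).1 ?_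
    simp only [map_sub, map_mul, map_star, map_one, hY, hV]
    exact e2
  · refine (seqMk_eq_iff (f := Y * star Y * V) (g := V)).1 ?_
    simp only [map_mul, map_star, hY, hV]
    exact e3

end Vale.Agent.P133.NucDim
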