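import Vale.Agent.P133.NucDim.OrderZero
import Vale.Agent.P133.FinDim.Defs

/-!
P133, finite nuclear dimension: what the proof of the central dimension drop takes from the
decompositions and from a single block.
-/

noncomputable section

namespace Vale.Agent.P133.NucDim

open Vale.Agent.P133.FinDim Filter Topology

universe u

variable {A : Type u} [CStarAlgebra A] [PartialOrder A] [StarOrderedRing A]

/-- A decomposition in `d + 1` colours, read through the images of matrix units. -/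
structure Colours (A : Type u) [CStarAlgebra A] [PartialOrder A] [StarOrderedRing A] (d : ℕ) where
  /-- The number of blocks. -/
  L : ℕ
  /-- The colours. -/
  col : Fin L → Fin (d + 1)
  /-- The sizes. -/
  size : Fin L → ℕ
  /-- The images of matrix units. -/
  U : ∀ l, Units (size l) A
  /-- The maps into matrices. -/
  m : ∀ l, A →ₗ[ℂ] Matrix (Fin (size l)) (Fin (size l)) ℂ
  orth : ∀ l l', col l = col l' → l ≠ l' → (U l).H * (U l').H = 0
  sq : ∀ l (a : A), 0 ≤ a → ∃ w : Matrix (Fin (size l)) (Fin (size l)) ℂ, m l a = star w * w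
  mono : ∀ l (a : A), 0 ≤ a → a ≤ 1 →
    0 ≤ (U l).app (m l a) ∧ (U l).app (m l a) ≤ (U l).app (m l 1)
  one_le : ∀ l, (U l).app (m l 1) ≤ (U l).H

/-- The part of colour `c` applied to `a`. -/
def Colours.eta {d : ℕ} (D : Colours A d) (c : Fin (d + 1)) (a : A) : A :=
  ∑ l ∈ Finset.univ.filter (fun l => D.col l = c), (D.U l).app (D.m l a)

/-- Small commutators with images of positive contractions, range in the corner, norm bound. -/
structure Units.Good {n : ℕ} (U : Units n A) (δ C : ℝ) (X : A) : Prop where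
  comm : ∀ w : Matrix (Fin n) (Fin n) ℂ, 0 ≤ U.app (star w * w) → U.app (star w * w) ≤ 1 →
    ‖X * U.app (star w * w) - U.app (star w * w) * X‖ ≤ δ
  left : ∃ y, X = U.H * y
  right : ∃ y, X = y * U.H
  norm_le : ‖X‖ ≤ C

/-- One block: square-zero elements almost commuting with it that almost generate its support. -/
def BlockStatement : Prop :=
  ∀ (A : Type u) [CStarAlgebra A] [PartialOrder A] [StarOrderedRing A],
    IsWeaklyPurelyInfinite A → ∀ ε : ℝ, 0 < ε → ∃ N : ℕ, ∀ κ : ℝ, 0 < κ → κ ≤ 1 / 4 →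
      ∃ C : ℝ, 0 < C ∧ ∀ (k n : ℕ) (U : Units n A),
        ∃ (a s b : Fin 2 × Fin N → A) (G F : A),
          (∀ p, s p * s p = 0 ∧ U.Good (C / (k + 1)) N (a p) ∧ U.Good (C / (k + 1)) N (s p) ∧
            U.Good (C / (k + 1)) N (b p)) ∧
          U.Good (C / (k + 1)) 2 G ∧ U.Good (C / (k + 1)) 1 F ∧
          ‖G - ∑ p, a p * s p * b p‖ ≤ ε ∧ ‖G * F - U.H * U.H‖ ≤ 9 * κ ^ 2

/-- The decompositions from finite nuclear dimension, with each colour almost a multiplication. -/
def ApproxStatement : Prop :=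
  ∀ (A : Type u) [CStarAlgebra A] [PartialOrder A] [StarOrderedRing A] [Nontrivial A]
    [TopologicalSpace.SeparableSpace A],
    HasFiniteNuclearDimension A → ∃ (d : ℕ) (S : Set A) (D : ℕ → Colours A d),
      ((1 : A) ∈ S ∧ ∀ a ∈ S, 0 ≤ a ∧ a ≤ 1) ∧
      (∀ f : ℕ → A, (∃ C, ∀ n, ‖f n‖ ≤ C) →
        (∀ a ∈ S, Tendsto (fun n => ‖a * f n - f n * a‖) atTop (𝓝 0)) →
        ∀ a, Tendsto (fun n => ‖a * f n - f n * a‖) atTop (𝓝 0)) ∧
      ∀ a ∈ S, (∀ c, Tendsto (fun n => ‖(D n).eta c 1 * a - (D n).eta c a‖) atTop (𝓝 0) ∧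
          Tendsto (fun n => ‖a * (D n).eta c 1 - (D n).eta c a‖) atTop (𝓝 0)) ∧
        Tendsto (fun n => ‖∑ c, (D n).eta c a - a‖) atTop (𝓝 0)

end Vale.Agent.P133.NucDim
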