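import Vale.Agent.P095.Full.Defs

/-!
P133: finite nuclear dimension.
-/

noncomputable section

namespace Vale.Agent.P133.NucDim

open Vale.Agent.P095.Full

universe u

/-- Finite nuclear dimension: for some `d`, every finite set is approximately fixed by a
composition `∑ l, φ l ∘ ψ l` through finitely many matrix blocks in `d + 1` colours, with `ψ` and
`φ` completely positive and contractive, and `φ` of order zero on each colour (orthogonal positive
elements go to orthogonal elements; different blocks of one colour have orthogonal images). -/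
def HasFiniteNuclearDimension (A : Type u) [CStarAlgebra A] : Prop :=
  ∃ d : ℕ, ∀ (X : Finset A) (ε : ℝ), 0 < ε →
    ∃ (L : ℕ) (col : Fin L → Fin (d + 1)) (n : Fin L → ℕ)
      (ψ : ∀ l, A →ₗ[ℂ] Matrix (Fin (n l)) (Fin (n l)) ℂ)
      (φ : ∀ l, Matrix (Fin (n l)) (Fin (n l)) ℂ →ₗ[ℂ] A),
      (∀ l, IsCPMap (ψ l) ∧
        (∃ w : Matrix (Fin (n l)) (Fin (n l)) ℂ, 1 - ψ l 1 = star w * w) ∧
        IsCPMapMat A (φ l) ∧ IsPos (1 - φ l 1)) ∧
      (∀ l, ∀ a b : Matrix (Fin (n l)) (Fin (n l)) ℂ,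
        star a * a * (star b * b) = 0 → φ l (star a * a) * φ l (star b * b) = 0) ∧
      (∀ l l', col l = col l' → l ≠ l' → φ l 1 * φ l' 1 = 0) ∧
      ∀ a ∈ X, ‖∑ l, φ l (ψ l a) - a‖ ≤ ε

end Vale.Agent.P133.NucDim
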