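import Vale.Agent.P133.NucDim.Absorb
import Vale.Agent.P133.NucDim.Approx
import Vale.Agent.P133.NucDim.Block
import Vale.Agent.P133.NucDim.Central
import Vale.Agent.P133.FinDim.Transfer

/-!
P133: the three notions coincide for unital separable algebras of finite nuclear dimension.
-/

noncomputable section

namespace Vale.Agent.P133.NucDim

open Vale.Agent.P133.FinDim

universe u

theorem notions_coincide_nuclear (A : Type u) [CStarAlgebra A] [PartialOrder A]
    [StarOrderedRing A] [TopologicalSpace.SeparableSpace A] (hA : HasFiniteNuclearDimension A) :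
    (IsWeaklyPurelyInfinite A ↔ IsPurelyInfinite A) ∧
      (IsPurelyInfinite A ↔ IsStronglyPurelyInfinite A) := by
  have h : IsWeaklyPurelyInfinite A → IsStronglyPurelyInfinite A := by
    intro hW
    rcases subsingleton_or_nontrivial A with hsub | hnt
    · intro x y _ _ ε hε
      have hz : ∀ z : A, ‖z‖ < ε := fun z => by rw [Subsingleton.elim z 0, norm_zero]; exact hε
      exact ⟨0, 0, hz _, hz _, hz _⟩
    · exact absorb A (central_of approx block A hA hW) hW
  exact ⟨⟨fun hW => isPurelyInfinite_of_isStronglyPurelyInfinite (h hW),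
      isWeaklyPurelyInfinite_of_isPurelyInfinite⟩,
    ⟨fun hP => h (isWeaklyPurelyInfinite_of_isPurelyInfinite hP),
      isPurelyInfinite_of_isStronglyPurelyInfinite⟩⟩

end Vale.Agent.P133.NucDim
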