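import Vale.Agent.P133.NucDim.Defs
import Vale.Agent.P133.FinDim.Basic
import Vale.Agent.P095.Compare.Forms

/-!
P133, finite nuclear dimension: order zero maps on matrices and the transport of a corner to
their relative commutant.
-/

noncomputable section

namespace Vale.Agent.P133.NucDim

open Vale.Agent.P095.Full Vale.Agent.P095.Compare
open scoped ComplexOrder

universe u

variable {A : Type u} [CStarAlgebra A] [PartialOrder A] [StarOrderedRing A]

/-- Terms of orthogonal sums of squares are orthogonal. -/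
theorem mul_star_eq_zero_of_sums {α β : Type*} [Fintype α] [Fintype β] {x : α → A} {y : β → A}
    (h : (∑ i, star (x i) * x i) * (∑ j, star (y j) * y j) = 0) (i : α) (j : β) :
    x i * star (y j) = 0 := by
  set P := ∑ i, star (x i) * x i with hP
  set Q := ∑ j, star (y j) * y j with hQ
  have h1 : x i * Q = 0 := by
    rw [← CStarRing.star_mul_self_eq_zero_iff]
    refine le_antisymm ?_ (star_mul_self_nonneg _)
    calc star (x i * Q) * (x i * Q) = star Q * (star (x i) * x i) * Q := by
          rw [star_mul]; noncomm_ring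
      _ ≤ star Q * P * Q := star_left_conjugate_le_conjugate
          (Finset.single_le_sum (fun k _ => star_mul_self_nonneg (x k)) (Finset.mem_univ i)) Q
      _ = 0 := by rw [mul_assoc, h, mul_zero]
  have h2 : ∑ k, (x i * star (y k)) * star (x i * star (y k)) = 0 := by
    calc ∑ k, (x i * star (y k)) * star (x i * star (y k)) = x i * Q * star (x i) := by
          simp only [hQ, Finset.mul_sum, Finset.sum_mul, star_mul, star_star, mul_assoc]
      _ = 0 := by rw [h1, zero_mul]
  exact CStarRing.mul_star_self_eq_zero_iff _ |>.1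
    ((Finset.sum_eq_zero_iff_of_nonneg fun k _ => mul_star_self_nonneg _).1 h2 j (Finset.mem_univ j))

/-- The images of matrix units under an order zero map. -/
structure Units (n : ℕ) (A : Type u) [CStarAlgebra A] [PartialOrder A] where
  /-- The images. -/
  E : Fin n → Fin n → A
  star_E : ∀ a b, star (E a b) = E b a
  zero : ∀ a b c d, b ≠ c → E a b * E c d = 0
  step : ∀ a b c, E a b * E b c = E a a * E a c
  nonneg : ∀ a, 0 ≤ E a a
  sum_le : ∑ a, E a a ≤ 1

/-- An order zero map has images of matrix units with these rules, given by rows. -/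
theorem exists_units {n : ℕ} {φ : Matrix (Fin n) (Fin n) ℂ →ₗ[ℂ] A} (hcp : IsCPMapMat A φ)
    (h1 : IsPos (1 - φ 1))
    (horth : ∀ a b : Matrix (Fin n) (Fin n) ℂ,
      star a * a * (star b * b) = 0 → φ (star a * a) * φ (star b * b) = 0) :
    ∃ (U : Units n A) (z : Fin n → Fin n → A),
      (∀ m, φ m = ∑ a, ∑ b, m a b • U.E a b) ∧
      ∀ a b, U.E a b = ∑ l, star (z l a) * z l b := by
  obtain ⟨z, hz⟩ := exists_kraus hcp
  set E : Fin n → Fin n → A := fun a b => ∑ l, star (z l a) * z l b with hE
  have hφ : ∀ m : Matrix (Fin n) (Fin n) ℂ, φ m = ∑ a, ∑ b, m a b • E a b := by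
    intro m
    rw [hz, Finset.sum_comm]
    refine Finset.sum_congr rfl fun a _ => ?_
    rw [Finset.sum_comm]
    exact Finset.sum_congr rfl fun b _ => by rw [hE, Finset.smul_sum]
  -- the image of the projection onto a vector
  have hvec : ∀ v : Fin n → ℂ, ∀ o : Fin n,
      φ (star (Matrix.of fun k b => if k = o then v b else 0) *
        (Matrix.of fun k b => if k = o then v b else 0)) =
        ∑ l, star (∑ a, v a • z l a) * ∑ a, v a • z l a := by
    intro v o
    rw [hz]
    refine Finset.sum_congr rfl fun l _ => ?_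
    rw [star_sum, Finset.sum_mul_sum]
    refine Finset.sum_congr rfl fun a _ => Finset.sum_congr rfl fun b _ => ?_
    simp [Matrix.mul_apply, Matrix.star_apply, smul_smul, mul_comm]
  have hperp : ∀ v w : Fin n → ℂ, (∑ a, v a * star (w a)) = 0 → ∀ l k,
      (∑ a, v a • z l a) * star (∑ a, w a • z k a) = 0 := by
    intro v w hvw l k
    refine mul_star_eq_zero_of_sums (x := fun l => ∑ a, v a • z l a)
      (y := fun k => ∑ a, w a • z k a) ?_ l k
    rw [← hvec v l, ← hvec w l]
    refine horth _ _ ?_
    set P : Matrix (Fin n) (Fin n) ℂ := Matrix.of fun k b => if k = l then v b else 0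
    set Q : Matrix (Fin n) (Fin n) ℂ := Matrix.of fun k b => if k = l then w b else 0
    have hPQ : P * star Q = 0 := by
      ext i j
      simp only [Matrix.mul_apply, P, Q, Matrix.of_apply, Matrix.star_apply]
      by_cases hi : i = l <;> by_cases hj : j = l <;> simp [hi, hj]
      simpa using hvw
    rw [mul_assoc, ← mul_assoc P, hPQ, zero_mul, mul_zero]
  have hcross : ∀ a b, a ≠ b → ∀ l k, z l a * star (z k b) = 0 := by
    intro a b hab l k
    have := hperp (Pi.single a 1) (Pi.single b 1)
      (by simp [Pi.single_apply, hab.symm]) l k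
    simpa [Pi.single_apply] using this
  have hsame : ∀ a b l k, z l a * star (z k a) = z l b * star (z k b) := by
    intro a b l k
    rcases eq_or_ne a b with rfl | hab
    · rfl
    have := hperp (Pi.single a 1 + Pi.single b 1) (Pi.single a 1 - Pi.single b 1)
      (by simp [Pi.single_apply, add_mul, mul_sub, Finset.sum_add_distrib, Finset.sum_sub_distrib, hab, Ne.symm hab]) l k
    simp [Pi.single_apply, add_smul, sub_smul, Finset.sum_add_distrib, Finset.sum_sub_distrib,
      add_mul, mul_sub, hcross a b hab, hcross b a hab.symm] at this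
    exact (sub_eq_zero.1 (by linear_combination (norm := abel) this))
  have hmul : ∀ a b c d, E a b * E c d = ∑ l, ∑ k, star (z l a) * (z l b * star (z k c)) * z k d := by
    intro a b c d
    simp only [hE, Finset.sum_mul_sum, mul_assoc]
  refine ⟨⟨E, fun a b => ?_, fun a b c d hbc => ?_, fun a b c => ?_, fun a => ?_, ?_⟩, z, hφ,
    fun _ _ => rfl⟩
  · simp [hE, star_mul]
  · simp [hmul, hcross b c hbc]
  · simp only [hmul, hsame b a]
  · exact Finset.sum_nonneg fun l _ => star_mul_self_nonneg _
  · obtain ⟨w, hw⟩ := h1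
    have e : φ 1 = ∑ a, E a a := by simp [hφ, Matrix.one_apply]
    rw [← e, ← sub_nonneg, hw]
    exact star_mul_self_nonneg _

namespace Units

variable {n : ℕ} (U : Units n A)

/-- The image of the unit. -/
def H : A := ∑ a, U.E a a

/-- The map given by the units. -/
def app (m : Matrix (Fin n) (Fin n) ℂ) : A := ∑ a, ∑ b, m a b • U.E a b

theorem H_mul_E (a c : Fin n) : U.H * U.E a c = U.E a a * U.E a c := by
  rw [H, Finset.sum_mul, Finset.sum_eq_single_of_mem a (Finset.mem_univ a)]
  exact fun b _ hb => U.zero b b a c hb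

theorem H_nonneg : 0 ≤ U.H := Finset.sum_nonneg fun a _ => U.nonneg a

theorem norm_H_le : ‖U.H‖ ≤ 1 :=
  (CStarAlgebra.norm_le_one_iff_of_nonneg _ U.H_nonneg).2 U.sum_le

theorem E_le_one (a : Fin n) : U.E a a ≤ 1 :=
  (Finset.single_le_sum (fun b _ => U.nonneg b) (Finset.mem_univ a)).trans U.sum_le

/-- The units map squares to positive elements. -/
theorem app_nonneg (z : Fin n → Fin n → A) (hz : ∀ a b, U.E a b = ∑ l, star (z l a) * z l b)
    (w : Matrix (Fin n) (Fin n) ℂ) : 0 ≤ U.app (star w * w) := by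
  have e : U.app (star w * w) = ∑ k, ∑ l, star (∑ a, w k a • z l a) * ∑ a, w k a • z l a := by
    simp only [app, hz, star_sum, star_smul, Finset.sum_mul_sum, smul_mul_smul_comm,
      Matrix.mul_apply, Matrix.star_apply, Finset.sum_smul, Finset.smul_sum]
    conv_rhs => enter [2, k]; rw [Finset.sum_comm]
    conv_rhs => rw [Finset.sum_comm]
    refine Finset.sum_congr rfl fun a _ => ?_
    conv_rhs => enter [2, k]; rw [Finset.sum_comm]
    conv_rhs => rw [Finset.sum_comm]
    exact Finset.sum_congr rfl fun b _ => Finset.sum_comm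
  rw [e]
  exact Finset.sum_nonneg fun k _ => Finset.sum_nonneg fun l _ => star_mul_self_nonneg _

theorem H_sq : ∑ a, U.E a a * U.E a a = U.H * U.H := by
  conv_rhs => rw [H]
  rw [Finset.mul_sum]
  exact Finset.sum_congr rfl fun a _ => (U.H_mul_E a a).symm

end Units

/-- The inverse away from zero. -/
def gam (κ : ℝ) (t : ℝ) : ℝ := (max t κ)⁻¹

theorem continuous_gam {κ : ℝ} (hκ : 0 < κ) : Continuous (gam κ) :=
  Continuous.inv₀ (by fun_prop) fun _ => (lt_max_of_lt_right hκ).ne'

/-- A finite sum of elements with orthogonal ranges and domains has the norm of its largest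
term. -/
theorem norm_sum_orth_le {ι : Type*} (s : Finset ι) (y : ι → A)
    (h1 : ∀ i ∈ s, ∀ j ∈ s, i ≠ j → star (y i) * y j = 0)
    (h2 : ∀ i ∈ s, ∀ j ∈ s, i ≠ j → y i * star (y j) = 0) {C : ℝ} (hC : 0 ≤ C)
    (hy : ∀ i ∈ s, ‖y i‖ ≤ C) : ‖∑ i ∈ s, y i‖ ≤ C := by
  classical
  have e : star (∑ i ∈ s, y i) * ∑ i ∈ s, y i = ∑ i ∈ s, star (y i) * y i := by
    rw [star_sum, Finset.sum_mul]
    refine Finset.sum_congr rfl fun i hi => ?_
    rw [Finset.mul_sum, Finset.sum_eq_single_of_mem i hi fun j hj hji => h1 i hi j hj hji.symm]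
  set P := ∑ i ∈ s, star (y i) * y i with hP
  have hP0 : 0 ≤ P := Finset.sum_nonneg fun i _ => star_mul_self_nonneg _
  have hPP : star P * P ≤ (C ^ 2) • P := by
    rw [(IsSelfAdjoint.of_nonneg hP0).star_eq, hP, Finset.smul_sum, Finset.sum_mul]
    refine Finset.sum_le_sum fun i hi => ?_
    rw [Finset.mul_sum, Finset.sum_eq_single_of_mem i hi fun j hj hji => by
      rw [mul_assoc, ← mul_assoc (y i), h2 i hi j hj hji.symm, zero_mul, mul_zero]]
    have hle : y i * star (y i) ≤ algebraMap ℝ A (C ^ 2) := by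
      refine (IsSelfAdjoint.mul_star_self (y i)).le_algebraMap_norm_self.trans (algebraMap_mono A ?_)
      rw [CStarRing.norm_self_mul_star, ← sq]
      exact pow_le_pow_left₀ (norm_nonneg _) (hy i hi) 2
    calc star (y i) * y i * (star (y i) * y i) = star (y i) * (y i * star (y i)) * y i := by
          noncomm_ring
      _ ≤ star (y i) * algebraMap ℝ A (C ^ 2) * y i := star_left_conjugate_le_conjugate hle _
      _ = (C ^ 2) • (star (y i) * y i) := by simp [Algebra.algebraMap_eq_smul_one]
  have h := CStarAlgebra.norm_le_norm_of_nonneg_of_le (star_mul_self_nonneg P) hPP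
  rw [CStarRing.norm_star_mul_self, norm_smul, Real.norm_of_nonneg (sq_nonneg C)] at h
  have hn : ‖P‖ ≤ C ^ 2 := by
    rcases (norm_nonneg P).eq_or_lt with h0 | h0
    · rw [← h0]; positivity
    · exact le_of_mul_le_mul_right h h0
  rw [← e, CStarRing.norm_star_mul_self, ← sq] at hn
  exact le_of_pow_le_pow_left₀ two_ne_zero hC hn

namespace Units

variable {n : ℕ} (U : Units n A) (o : Fin n) {κ : ℝ}

/-- The function `γ` of the corner. -/
def g (κ : ℝ) : A := cfc (gam κ) (U.E o o)

/-- The partial isometry from the first corner to corner `i`. -/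
def v (κ : ℝ) (i : Fin n) : A := U.E i o * U.g o κ

/-- The transport of an element of the first corner to the relative commutant. -/
def theta (κ : ℝ) (a : A) : A := ∑ i, U.v o κ i * a * star (U.v o κ i)

theorem star_g : star (U.g o κ) = U.g o κ := (cfc_predicate (gam κ) (U.E o o)).star_eq

theorem norm_g_le (hκ : 0 < κ) : ‖U.g o κ‖ ≤ κ⁻¹ :=
  norm_cfc_le (inv_nonneg.2 hκ.le) fun t _ => by
    rw [Real.norm_eq_abs, gam, abs_of_nonneg (inv_nonneg.2 (le_max_of_le_right hκ.le))]
    exact inv_anti₀ hκ (le_max_right _ _)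

theorem commute_g : Commute (U.g o κ) (U.E o o) :=
  (Commute.refl (U.E o o)).cfc_real (gam κ)

theorem star_v_mul_v (i j : Fin n) : star (U.v o κ i) * U.v o κ j =
    if i = j then U.E o o * U.g o κ * (U.E o o * U.g o κ) else 0 := by
  rw [v, v, star_mul, U.star_E, star_g]
  split_ifs with h
  · subst h
    calc U.g o κ * U.E o i * (U.E i o * U.g o κ) = U.g o κ * (U.E o i * U.E i o) * U.g o κ := by
          noncomm_ring
      _ = (U.g o κ * U.E o o) * (U.E o o * U.g o κ) := by rw [U.step]; noncomm_ring
      _ = _ := by rw [(U.commute_g o).eq]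
  · calc U.g o κ * U.E o i * (U.E j o * U.g o κ) = U.g o κ * (U.E o i * U.E j o) * U.g o κ := by
          noncomm_ring
      _ = 0 := by rw [U.zero o i j o h, mul_zero, zero_mul]

theorem theta_add (a b : A) : U.theta o κ (a + b) = U.theta o κ a + U.theta o κ b := by
  simp [theta, mul_add, add_mul, Finset.sum_add_distrib]

theorem theta_sum {ι : Type*} (s : Finset ι) (a : ι → A) :
    U.theta o κ (∑ k ∈ s, a k) = ∑ k ∈ s, U.theta o κ (a k) := by
  simp only [theta, Finset.mul_sum, Finset.sum_mul]
  rw [Finset.sum_comm]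

theorem theta_sub (a b : A) : U.theta o κ (a - b) = U.theta o κ a - U.theta o κ b := by
  simp [theta, mul_sub, sub_mul, Finset.sum_sub_distrib]

theorem theta_star (a : A) : star (U.theta o κ a) = U.theta o κ (star a) := by
  simp [theta, star_mul, mul_assoc]

/-- On elements fixed by `p = (γ h)²` the transport is multiplicative. -/
theorem theta_mul (a b : A) (hb : U.E o o * U.g o κ * (U.E o o * U.g o κ) * b = b) :
    U.theta o κ a * U.theta o κ b = U.theta o κ (a * b) := by
  simp only [theta, Finset.sum_mul_sum]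
  refine Finset.sum_congr rfl fun i _ => ?_
  rw [Finset.sum_eq_single_of_mem i (Finset.mem_univ i) fun j _ hji => ?_]
  · calc U.v o κ i * a * star (U.v o κ i) * (U.v o κ i * b * star (U.v o κ i))
        = U.v o κ i * a * (star (U.v o κ i) * U.v o κ i * b) * star (U.v o κ i) := by noncomm_ring
      _ = _ := by rw [star_v_mul_v, if_pos rfl, hb]; noncomm_ring
  · calc U.v o κ i * a * star (U.v o κ i) * (U.v o κ j * b * star (U.v o κ j))
        = U.v o κ i * a * (star (U.v o κ i) * U.v o κ j) * b * star (U.v o κ j) := by noncomm_ring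
      _ = 0 := by rw [star_v_mul_v, if_neg hji.symm]; noncomm_ring

theorem norm_v_sq_le (hκ : 0 < κ) (i : Fin n) : ‖star (U.v o κ i) * U.v o κ i‖ ≤ 1 := by
  rw [star_v_mul_v, if_pos rfl]
  have e : U.E o o * U.g o κ = cfc (fun t => t * gam κ t) (U.E o o) := by
    rw [cfc_mul (fun t : ℝ => t) (gam κ) (U.E o o) continuousOn_id (continuous_gam hκ).continuousOn,
      cfc_id' ℝ (U.E o o) (IsSelfAdjoint.of_nonneg (U.nonneg o))]
    rfl
  have h : ‖U.E o o * U.g o κ‖ ≤ 1 := by
    rw [e]
    refine norm_cfc_le zero_le_one fun t ht => ?_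
    have ht0 : 0 ≤ t := spectrum_nonneg_of_nonneg (U.nonneg o) ht
    rw [Real.norm_eq_abs, gam, abs_of_nonneg (by positivity), ← div_eq_mul_inv,
      div_le_one (lt_max_of_lt_right hκ)]
    exact le_max_left _ _
  exact (norm_mul_le _ _).trans (mul_le_one₀ h (norm_nonneg _) h)

theorem norm_theta_le (hκ : 0 < κ) (a : A) : ‖U.theta o κ a‖ ≤ ‖a‖ := by
  have hz : ∀ i j, i ≠ j → star (U.v o κ i) * U.v o κ j = 0 := fun i j h => by
    rw [star_v_mul_v, if_neg h]
  refine norm_sum_orth_le Finset.univ _ (fun i _ j _ hij => ?_) (fun i _ j _ hij => ?_)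
    (norm_nonneg a) fun i _ => ?_
  · simp only [star_mul, star_star]
    calc U.v o κ i * (star a * star (U.v o κ i)) * (U.v o κ j * a * star (U.v o κ j))
        = U.v o κ i * star a * (star (U.v o κ i) * U.v o κ j) * a * star (U.v o κ j) := by noncomm_ring
      _ = 0 := by rw [hz i j hij]; noncomm_ring
  · simp only [star_mul, star_star]
    calc U.v o κ i * a * star (U.v o κ i) * (U.v o κ j * (star a * star (U.v o κ j)))
        = U.v o κ i * a * (star (U.v o κ i) * U.v o κ j) * star a * star (U.v o κ j) := by noncomm_ring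
      _ = 0 := by rw [hz i j hij]; noncomm_ring
  · have h1 : ‖U.v o κ i‖ ≤ 1 := by
      have := U.norm_v_sq_le o hκ i
      rw [CStarRing.norm_star_mul_self] at this
      nlinarith [norm_nonneg (U.v o κ i)]
    calc ‖U.v o κ i * a * star (U.v o κ i)‖ ≤ ‖U.v o κ i * a‖ * ‖U.v o κ i‖ :=
          (norm_mul_le _ _).trans_eq (by rw [norm_star])
      _ ≤ (‖U.v o κ i‖ * ‖a‖) * ‖U.v o κ i‖ :=
          mul_le_mul_of_nonneg_right (norm_mul_le _ _) (norm_nonneg _)
      _ ≤ (1 * ‖a‖) * 1 := by gcongr
      _ = ‖a‖ := by ring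

/-- The transport almost commutes with the order zero map, as far as `a` commutes with the
corner. -/
theorem norm_theta_comm_le (hκ : 0 < κ) (a : A) {m : Matrix (Fin n) (Fin n) ℂ}
    {w : Matrix (Fin n) (Fin n) ℂ} (hm : m = star w * w) (h0 : 0 ≤ U.app m) (hle : U.app m ≤ 1) :
    ‖U.theta o κ a * U.app m - U.app m * U.theta o κ a‖ ≤
      κ⁻¹ * κ⁻¹ * ‖a * U.E o o - U.E o o * a‖ := by
  set g := U.g o κ with hg
  set h := U.E o o with hh
  have hgs : star g = g := U.star_g o
  set K := g * (a * h - h * a) * g with hK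
  have hzE : ∀ p q, U.theta o κ a * U.E p q = U.E p o * g * a * (g * h) * U.E o q := by
    intro p q
    rw [theta, Finset.sum_mul, Finset.sum_eq_single_of_mem p (Finset.mem_univ p)]
    · simp only [v, star_mul, U.star_E, ← hg, hgs]
      calc U.E p o * g * a * (g * U.E o p) * U.E p q
          = U.E p o * g * a * g * (U.E o p * U.E p q) := by noncomm_ring
        _ = _ := by rw [U.step, ← hh]; noncomm_ring
    · intro i _ hi
      simp only [v, star_mul, U.star_E]
      calc U.E i o * U.g o κ * a * (star (U.g o κ) * U.E o i) * U.E p q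
          = U.E i o * U.g o κ * a * star (U.g o κ) * (U.E o i * U.E p q) := by noncomm_ring
        _ = 0 := by rw [U.zero o i p q hi, mul_zero]
  have hEz : ∀ p q, U.E p q * U.theta o κ a = U.E p o * (h * g) * a * g * U.E o q := by
    intro p q
    rw [theta, Finset.mul_sum, Finset.sum_eq_single_of_mem q (Finset.mem_univ q)]
    · simp only [v, star_mul, U.star_E, ← hg, hgs]
      calc U.E p q * (U.E q o * g * a * (g * U.E o q))
          = (U.E p q * U.E q o) * g * a * g * U.E o q := by noncomm_ring
        _ = (U.E p o * U.E o o) * g * a * g * U.E o q := by rw [U.step p q o, ← U.step p o o]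
        _ = _ := by noncomm_ring
    · intro i _ hi
      simp only [v, star_mul, U.star_E]
      calc U.E p q * (U.E i o * U.g o κ * a * (star (U.g o κ) * U.E o i))
          = U.E p q * U.E i o * (U.g o κ * a * (star (U.g o κ) * U.E o i)) := by noncomm_ring
        _ = 0 := by rw [U.zero p q i o hi.symm, zero_mul]
  have hgh : g * h = h * g := (U.commute_g o).eq
  have hkey : ∀ M : A, ∑ k, star (∑ p, w k p • U.E o p) * (M * ∑ q, w k q • U.E o q) =
      ∑ p, ∑ q, m p q • (U.E p o * M * U.E o q) := by
    intro M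
    calc ∑ k, star (∑ p, w k p • U.E o p) * (M * ∑ q, w k q • U.E o q)
        = ∑ k, ∑ p, ∑ q, (star (w k p) * w k q) • (U.E p o * M * U.E o q) :=
          Finset.sum_congr rfl fun k _ => by
            rw [star_sum, Finset.sum_mul]
            refine Finset.sum_congr rfl fun p _ => ?_
            rw [Finset.mul_sum, Finset.mul_sum]
            refine Finset.sum_congr rfl fun q _ => ?_
            rw [star_smul, U.star_E, mul_smul_comm, smul_mul_smul_comm, mul_assoc]
      _ = ∑ p, ∑ q, ∑ k, (star (w k p) * w k q) • (U.E p o * M * U.E o q) := by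
          rw [Finset.sum_comm]
          exact Finset.sum_congr rfl fun p _ => Finset.sum_comm
      _ = _ := Finset.sum_congr rfl fun p _ => Finset.sum_congr rfl fun q _ => by
          rw [← Finset.sum_smul, hm, Matrix.mul_apply]
          rfl
  have hexp : U.theta o κ a * U.app m - U.app m * U.theta o κ a =
      ∑ k, star (∑ p, w k p • U.E o p) * (K * ∑ q, w k q • U.E o q) := by
    rw [hkey K]
    simp only [app, Finset.mul_sum, Finset.sum_mul, mul_smul_comm, smul_mul_assoc, hzE, hEz,
      ← Finset.sum_sub_distrib, ← smul_sub]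
    refine Finset.sum_congr rfl fun p _ => Finset.sum_congr rfl fun q _ => congrArg (m p q • ·) ?_
    calc U.E p o * g * a * (g * h) * U.E o q - U.E p o * (h * g) * a * g * U.E o q
        = U.E p o * g * a * (h * g) * U.E o q - U.E p o * (g * h) * a * g * U.E o q := by rw [hgh]
      _ = _ := by rw [hK]; noncomm_ring
  have hY : ∑ k, star (∑ p, w k p • U.E o p) * (∑ q, w k q • U.E o q) = U.H * U.app m := by
    calc ∑ k, star (∑ p, w k p • U.E o p) * (∑ q, w k q • U.E o q)
        = ∑ k, star (∑ p, w k p • U.E o p) * (1 * ∑ q, w k q • U.E o q) := by simp only [one_mul]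
      _ = _ := by
        rw [hkey 1, app]
        simp only [Finset.mul_sum, mul_smul_comm, H_mul_E, mul_one]
        exact Finset.sum_congr rfl fun p _ => Finset.sum_congr rfl fun q _ => by rw [U.step]
  have hm0 : 0 ≤ U.H * U.app m := by
    rw [← hY]; exact Finset.sum_nonneg fun k _ => star_mul_self_nonneg _
  have hn1 : ‖U.H * U.app m‖ ≤ ‖U.app m‖ := (norm_mul_le _ _).trans
    (mul_le_of_le_one_left (norm_nonneg _) U.norm_H_le)
  rw [hexp]
  set Y : Fin n → A := fun k => ∑ q, w k q • U.E o q with hYdef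
  have hYY : ∑ k, star (Y k) * Y k ≤ algebraMap ℝ A ‖U.app m‖ := by
    rw [hY]
    exact (IsSelfAdjoint.of_nonneg hm0).le_algebraMap_norm_self.trans (algebraMap_mono A hn1)
  have hK0 : ‖K‖ ≤ κ⁻¹ * κ⁻¹ * ‖a * h - h * a‖ := by
    refine (norm_mul_le _ _).trans ?_
    refine (mul_le_mul ((norm_mul_le _ _).trans (mul_le_mul_of_nonneg_right (U.norm_g_le o hκ)
      (norm_nonneg _))) (U.norm_g_le o hκ) (norm_nonneg _) (by positivity)).trans_eq ?_
    ring
  have happ1 : ‖U.app m‖ ≤ 1 := (CStarAlgebra.norm_le_one_iff_of_nonneg _ h0).2 hle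
  have hYY1 : ∑ k, star (Y k) * star (star (Y k)) ≤ FinDim.sc (1 : ℝ) := by
    simp only [star_star]
    exact hYY.trans (algebraMap_mono A happ1)
  have hrow := FinDim.norm_row_sq_le Finset.univ (fun k => star (Y k)) (fun k => K * Y k)
    one_pos hYY1
  have hv : ‖∑ k, star (K * Y k) * (K * Y k)‖ ≤ ‖K‖ * ‖K‖ := by
    have h1 : ∑ k, star (K * Y k) * (K * Y k) ≤ algebraMap ℝ A (‖K‖ * ‖K‖) := by
      calc ∑ k, star (K * Y k) * (K * Y k) = ∑ k, star (Y k) * (star K * K) * Y k := by
            simp [star_mul, mul_assoc]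
        _ ≤ ∑ k, star (Y k) * algebraMap ℝ A (‖K‖ * ‖K‖) * Y k :=
            Finset.sum_le_sum fun k _ => star_left_conjugate_le_conjugate
              ((IsSelfAdjoint.star_mul_self K).le_algebraMap_norm_self.trans_eq
                (by rw [CStarRing.norm_star_mul_self])) _
        _ = (‖K‖ * ‖K‖) • ∑ k, star (Y k) * Y k := by
            simp [Algebra.algebraMap_eq_smul_one, Finset.smul_sum]
        _ ≤ (‖K‖ * ‖K‖) • algebraMap ℝ A 1 :=
            smul_le_smul_of_nonneg_left (hYY.trans (algebraMap_mono A happ1)) (by positivity)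
        _ = _ := by simp [Algebra.algebraMap_eq_smul_one]
    exact FinDim.norm_le_of_le_sc (Finset.sum_nonneg fun k _ => star_mul_self_nonneg _)
      (by positivity) h1
  refine le_trans ?_ hK0
  rw [one_mul] at hrow
  exact le_of_pow_le_pow_left₀ two_ne_zero (norm_nonneg _) ((hrow.trans hv).trans_eq (sq _).symm)

end Units

end Vale.Agent.P133.NucDim
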